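import Vale.Agent.P297.H839.Swap
import Mathlib.RingTheory.Polynomial.RationalRoot
import Mathlib.RingTheory.Polynomial.UniqueFactorization
import Mathlib.RingTheory.IntegralClosure.IntegrallyClosed
import Mathlib.RingTheory.AlgebraicIndependent.Transcendental

/-!
Specialization of polynomials in two algebraically independent elements; non-squares.
-/

open Polynomial

namespace Vale.Agent.P297.H424

open Vale.Agent.P297 Vale.Agent.P297.H839

theorem quad_not_square {g2 g1 g0 : ℂ} (hd : g1 ^ 2 - 4 * g2 * g0 ≠ 0) (p : ℂ[X]) :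
    p ^ 2 ≠ C g2 * X ^ 2 + C g1 * X + C g0 := by
  intro h
  obtain ⟨Q, hQ⟩ : ∃ Q, Q = C g2 * X ^ 2 + C g1 * X + C g0 := ⟨_, rfl⟩
  rw [← hQ] at h
  have h1 : Q.derivative = 2 * C g2 * X + C g1 := by
    rw [hQ]
    simp only [map_add, derivative_mul, derivative_C, derivative_X, derivative_X_pow, zero_mul,
      mul_one, zero_add, add_zero, Nat.cast_ofNat]
    simp only [Nat.add_one_sub_one, pow_one]
    have : (C (2 : ℂ) : ℂ[X]) = 2 := rfl
    rw [this]
    ring
  have h2 : Q.derivative = 2 * p * p.derivative := by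
    rw [← h, derivative_pow]
    simp only [Nat.cast_ofNat, Nat.add_one_sub_one, pow_one]
    have : (C (2 : ℂ) : ℂ[X]) = 2 := rfl
    rw [this]
  have h3 : 4 * Q * (p.derivative ^ 2 - C g2) = C (g1 ^ 2 - 4 * g2 * g0) := by
    have h4 : 4 * Q * p.derivative ^ 2 = Q.derivative ^ 2 := by
      rw [h2, ← h]
      ring
    have h5 : C (g1 ^ 2 - 4 * g2 * g0) = (C g1) ^ 2 - 4 * C g2 * C g0 := by
      simp only [map_sub, map_pow, map_mul]
      have : (C (4 : ℂ) : ℂ[X]) = 4 := rfl
      rw [this]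
    rw [mul_sub, h4, h1, h5, hQ]
    ring
  have h6 : IsUnit Q := by
    have h7 : IsUnit (4 * Q * (p.derivative ^ 2 - C g2)) := by
      rw [h3, isUnit_C]
      exact hd.isUnit
    have h8 : IsUnit (4 * Q) := isUnit_of_mul_isUnit_left h7
    exact isUnit_of_mul_isUnit_right h8
  obtain ⟨k, hk, hk'⟩ := Polynomial.isUnit_iff.1 h6
  have h9 : g2 = 0 := by
    have := congrArg (fun f : ℂ[X] => f.coeff 2) hk'
    simp only [hQ] at this
    simp only [coeff_add, coeff_C_mul, coeff_X_pow, coeff_C, coeff_X] at this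
    simpa using this.symm
  have h10 : g1 = 0 := by
    have := congrArg (fun f : ℂ[X] => f.coeff 1) hk'
    simp only [hQ] at this
    simp only [coeff_add, coeff_C_mul, coeff_X_pow, coeff_C, coeff_X] at this
    simpa using this.symm
  apply hd
  rw [h9, h10]
  ring

variable {N : Type} [Field N] [Algebra ℂ N]

theorem ne_zero_of_point {x y : N} (h : AlgebraicIndependent ℂ ![x, y])
    (P : MvPolynomial (Fin 2) ℂ) (a b : ℂ) (hP : MvPolynomial.aeval ![a, b] P ≠ 0) :
    MvPolynomial.aeval ![x, y] P ≠ 0 := by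
  intro h0
  apply hP
  have h1 : P = 0 := (injective_iff_map_eq_zero _).1 h P h0
  rw [h1, map_zero]

/-- A polynomial in two independent elements is not a square if it has a specialization that is
not a square. -/
theorem not_square_of_spec {x y : N} (h : AlgebraicIndependent ℂ ![x, y])
    (P : MvPolynomial (Fin 2) ℂ) (a : ℂ)
    (hP : ∀ p : ℂ[X], p ^ 2 ≠ MvPolynomial.aeval ![C a, (X : ℂ[X])] P) :
    ∀ f ∈ IntermediateField.adjoin ℂ {x, y}, f ^ 2 ≠ MvPolynomial.aeval ![x, y] P := by
  intro f hf hfP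
  rw [← range_pair] at hf
  let e := h.aevalEquivField
  obtain ⟨g, hg⟩ := e.surjective ⟨f, hf⟩
  have hg2 : g ^ 2 = algebraMap (MvPolynomial (Fin 2) ℂ) (FractionRing (MvPolynomial (Fin 2) ℂ)) P := by
    apply e.injective
    apply Subtype.ext
    rw [map_pow, hg]
    change f ^ 2 = ((h.aevalEquivField _ : IntermediateField.adjoin ℂ (Set.range ![x, y])) : N)
    rw [AlgebraicIndependent.aevalEquivField_algebraMap_apply_coe]
    exact hfP
  have hint : IsIntegral (MvPolynomial (Fin 2) ℂ) (g ^ 2) := by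
    rw [hg2]
    exact isIntegral_algebraMap
  obtain ⟨p, hp⟩ := IsIntegrallyClosed.exists_algebraMap_eq_of_isIntegral_pow
    (R := MvPolynomial (Fin 2) ℂ) (K := FractionRing (MvPolynomial (Fin 2) ℂ)) two_pos hint
  have hpP : p ^ 2 = P := by
    apply IsFractionRing.injective (MvPolynomial (Fin 2) ℂ) (FractionRing (MvPolynomial (Fin 2) ℂ))
    rw [map_pow, hp, hg2]
  apply hP (MvPolynomial.aeval ![C a, (X : ℂ[X])] p)
  rw [← map_pow, hpP]

end Vale.Agent.P297.H424
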