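import Vale.Agent.P297.H600.Quartic

/-!
The twin of a pencil of canonical curves of genus four with an involution.
-/

set_option linter.unusedSectionVars false

open CategoryTheory AlgebraicGeometry IntermediateField Polynomial

namespace Vale.Agent.P297.H424

open Vale.Agent.P297 Vale.Agent.P297.H839 Vale.Agent.P297.H109 Vale.Agent.P297.H600

/-- `A + θ² B(t) = 0`, `c + θ² E(t) = 0` with binary quadratic forms `B`, `E`. If `F(t)` and
`F(l, θ (t - l))` are rational, where `l` is a zero of the Jacobian of `B` and `E`, then all points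
are equivalent. -/
theorem twin_core {N K : Type} [Field N] [Algebra ℂ N] [Field K] [Algebra ℂ K]
    (F : IntermediateField ℂ N) (m : K →ₐ[ℂ] N) (b0 b1 b2 e0 e1 e2 A c t θ l : N)
    (hb0 : b0 ∈ F) (hb1 : b1 ∈ F) (hb2 : b2 ∈ F) (he0 : e0 ∈ F) (he1 : e1 ∈ F) (he2 : e2 ∈ F)
    (hAF : A ∈ F) (hcF : c ∈ F)
    (hA : A + θ ^ 2 * (b2 * t ^ 2 + b1 * t + b0) = 0)
    (hc : c + θ ^ 2 * (e2 * t ^ 2 + e1 * t + e0) = 0)
    (hl : (b2 * e1 - b1 * e2) * l ^ 2 + 2 * (b2 * e0 - b0 * e2) * l + (b1 * e0 - b0 * e1) = 0)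
    (hD : b2 * e1 - b1 * e2 ≠ 0) (hF2 : b2 * c - e2 * A ≠ 0)
    (hsq : ∀ a ∈ F, a ^ 2 ≠ (b2 * e0 - b0 * e2) ^ 2 - (b1 * e0 - b0 * e1) * (b2 * e1 - b1 * e2))
    (hm : m.fieldRange = F ⊔ IntermediateField.adjoin ℂ {θ})
    (h1 : IsRational (F ⊔ IntermediateField.adjoin ℂ {l, θ * (t - l)}))
    (h2 : IsRational (F ⊔ IntermediateField.adjoin ℂ {t})) : PointsEquivalent K := by
  have : CharZero N := charZero_of_injective_algebraMap (algebraMap ℂ N).injective
  obtain ⟨d, hd⟩ : ∃ d, d = b2 * e1 - b1 * e2 := ⟨_, rfl⟩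
  obtain ⟨d', hd'⟩ : ∃ d', d' = b2 * e0 - b0 * e2 := ⟨_, rfl⟩
  obtain ⟨d'', hd''⟩ : ∃ d'', d'' = b1 * e0 - b0 * e1 := ⟨_, rfl⟩
  obtain ⟨f1, hf1⟩ : ∃ f1, f1 = b1 * c - e1 * A := ⟨_, rfl⟩
  obtain ⟨f2, hf2⟩ : ∃ f2, f2 = b2 * c - e2 * A := ⟨_, rfl⟩
  have hdF : d ∈ F := by rw [hd]; exact sub_mem (mul_mem hb2 he1) (mul_mem hb1 he2)
  have hd'F : d' ∈ F := by rw [hd']; exact sub_mem (mul_mem hb2 he0) (mul_mem hb0 he2)
  have hd''F : d'' ∈ F := by rw [hd'']; exact sub_mem (mul_mem hb1 he0) (mul_mem hb0 he1)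
  have hf1F : f1 ∈ F := by rw [hf1]; exact sub_mem (mul_mem hb1 hcF) (mul_mem he1 hAF)
  have hf2F : f2 ∈ F := by rw [hf2]; exact sub_mem (mul_mem hb2 hcF) (mul_mem he2 hAF)
  rw [← hd, ← hd', ← hd''] at hl
  rw [← hd] at hD
  rw [← hf2] at hF2
  rw [← hd, ← hd', ← hd''] at hsq
  have hF2eq : f2 = -(θ ^ 2 * (d * t + d')) := by
    rw [hf2, hd, hd']
    linear_combination (-e2) * hA + b2 * hc
  have hF1eq : f1 = θ ^ 2 * (d * t ^ 2 - d'') := by
    rw [hf1, hd, hd'']
    linear_combination (-e1) * hA + b1 * hc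
  obtain ⟨γ, hγ⟩ : ∃ γ, γ = d' ^ 2 - d'' * d := ⟨_, rfl⟩
  have hγF : γ ∈ F := by rw [hγ]; exact sub_mem (pow_mem hd'F 2) (mul_mem hd''F hdF)
  have hγ0 : γ ≠ 0 := fun h => hsq 0 F.zero_mem (by rw [← hγ, h]; ring)
  obtain ⟨y, hy⟩ : ∃ y, y = d * l + d' := ⟨_, rfl⟩
  have hy2 : y ^ 2 = γ := by
    rw [hy, hγ]
    linear_combination d * hl
  have hy0 : y ≠ 0 := by
    rintro rfl
    apply hγ0
    rw [← hy2]
    ring
  have hθ0 : θ ≠ 0 := by
    rintro rfl
    apply hF2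
    rw [hF2eq]
    ring
  obtain ⟨w, hw⟩ : ∃ w, w = θ * (t - l) := ⟨_, rfl⟩
  have hw2 : w ^ 2 * d = 2 * l * f2 + f1 := by
    have h3 : d * (w ^ 2 * d - (2 * l * f2 + f1)) = 0 := by
      rw [hw, hF1eq, hF2eq]
      linear_combination θ ^ 2 * d * hl
    exact sub_eq_zero.1 ((mul_eq_zero.1 h3).resolve_left hD)
  obtain ⟨ζ, hζ⟩ : ∃ ζ, ζ = -(w * d) / (2 * y) := ⟨_, rfl⟩
  obtain ⟨p, hp⟩ : ∃ p, p = -(2 * d' * f2 - d * f1) / (2 * γ) := ⟨_, rfl⟩
  obtain ⟨n, hn⟩ : ∃ n, n = f2 ^ 2 / γ := ⟨_, rfl⟩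
  have h20 : (2 : N) ≠ 0 := two_ne_zero
  have hpF : p ∈ F := by
    rw [hp]
    exact div_mem (neg_mem (sub_mem (mul_mem (mul_mem (ofNat_mem F 2) hd'F) hf2F)
      (mul_mem hdF hf1F))) (mul_mem (ofNat_mem F 2) hγF)
  have hnF : n ∈ F := by rw [hn]; exact div_mem (pow_mem hf2F 2) hγF
  have hζp : 2 * ζ ^ 2 - p = f2 / y := by
    rw [hζ, hp, ← hy2]
    field_simp
    rw [hy]
    linear_combination d * hw2
  have hζ2 : (2 * ζ ^ 2 - p) ^ 2 = n := by
    rw [hζp, hn, ← hy2]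
    rw [div_pow]
  have hquart : θ ^ 4 - 2 * p * θ ^ 2 + n = 0 := by
    rw [hp, hn]
    field_simp
    rw [hγ, hF1eq, hF2eq]
    ring
  have hsqn : ∀ a ∈ F, a ^ 2 ≠ n := by
    intro a ha h
    have ha0 : a ≠ 0 := by
      rintro rfl
      rw [hn] at h
      have : f2 ^ 2 / γ ≠ 0 := div_ne_zero (pow_ne_zero 2 hF2) hγ0
      exact this (by rw [← h]; ring)
    apply hsq (f2 / a) (div_mem hf2F ha)
    rw [div_pow, h, hn, ← hγ]
    field_simp
  refine quartic_twin_aux F p n θ ζ hpF hnF hquart hζ2 hsqn m hm ?_ ?_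
  · have hEq : F ⊔ IntermediateField.adjoin ℂ {ζ} = F ⊔ IntermediateField.adjoin ℂ {l, θ * (t - l)} := by
      rw [← hw]
      apply le_antisymm
      · refine sup_adjoin_le le_sup_left ?_
        have hFle : F ≤ F ⊔ IntermediateField.adjoin ℂ {l, w} := le_sup_left
        have hl' : l ∈ F ⊔ IntermediateField.adjoin ℂ {l, w} :=
          (le_sup_right : IntermediateField.adjoin ℂ {l, w} ≤ _)
            (IntermediateField.subset_adjoin _ _ (by simp))
        have hw' : w ∈ F ⊔ IntermediateField.adjoin ℂ {l, w} :=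
          (le_sup_right : IntermediateField.adjoin ℂ {l, w} ≤ _)
            (IntermediateField.subset_adjoin _ _ (by simp))
        rw [hζ]
        refine div_mem (neg_mem (mul_mem hw' (hFle hdF))) (mul_mem (ofNat_mem _ 2) ?_)
        rw [hy]
        exact add_mem (mul_mem (hFle hdF) hl') (hFle hd'F)
      · have hFle : F ≤ F ⊔ IntermediateField.adjoin ℂ {ζ} := le_sup_left
        have hζm : ζ ∈ F ⊔ IntermediateField.adjoin ℂ {ζ} := mem_sup_adjoin F ζ
        have hym : y ∈ F ⊔ IntermediateField.adjoin ℂ {ζ} := by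
          have h3 : y = f2 / (2 * ζ ^ 2 - p) := by
            rw [hζp]
            field_simp
          rw [h3]
          exact div_mem (hFle hf2F) (sub_mem (mul_mem (ofNat_mem _ 2) (pow_mem hζm 2)) (hFle hpF))
        refine sup_le hFle ?_
        rw [IntermediateField.adjoin_le_iff]
        rintro a (rfl | ha)
        · have h3 : a = (y - d') / d := by
            rw [hy]
            field_simp
            ring
          rw [h3]
          exact div_mem (sub_mem hym (hFle hd'F)) (hFle hdF)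
        · rw [Set.mem_singleton_iff.1 ha]
          have h3 : w = -(2 * y * ζ) / d := by
            rw [hζ]
            field_simp
          rw [h3]
          exact div_mem (neg_mem (mul_mem (mul_mem (ofNat_mem _ 2) hym) hζm)) (hFle hdF)
    rw [hEq]
    exact h1
  · have hEq : F ⊔ IntermediateField.adjoin ℂ {θ ^ 2} = F ⊔ IntermediateField.adjoin ℂ {t} := by
      apply le_antisymm
      · have hFle : F ≤ F ⊔ IntermediateField.adjoin ℂ {t} := le_sup_left
        refine sup_adjoin_le hFle ?_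
        have h4 : d * t + d' ≠ 0 := by
          intro h
          apply hF2
          rw [hF2eq, h]
          ring
        have h3 : θ ^ 2 = -f2 / (d * t + d') := by
          rw [hF2eq]
          field_simp
        rw [h3]
        exact div_mem (neg_mem (hFle hf2F))
          (add_mem (mul_mem (hFle hdF) (mem_sup_adjoin F t)) (hFle hd'F))
      · have hFle : F ≤ F ⊔ IntermediateField.adjoin ℂ {θ ^ 2} := le_sup_left
        refine sup_adjoin_le hFle ?_
        have h3 : t = -(f2 / θ ^ 2 + d') / d := by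
          rw [hF2eq]
          field_simp
          ring
        rw [h3]
        exact div_mem (neg_mem (add_mem (div_mem (hFle hf2F) (mem_sup_adjoin F _)) (hFle hd'F)))
          (hFle hdF)
    rw [hEq]
    exact h2

end Vale.Agent.P297.H424
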