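import Vale.Agent.P297.H424.Poly

/-!
The general theorem.
-/

set_option linter.unusedSectionVars false

open CategoryTheory AlgebraicGeometry IntermediateField Polynomial

namespace Vale.Agent.P297.H424

open Vale.Agent.P297 Vale.Agent.P297.H839 Vale.Agent.P297.H109 Vale.Agent.P297.H600

section

variable {N : Type} [Field N] [Algebra ℂ N] (D : Net)

theorem map_g (f : ℂ →ₐ[ℂ] ℂ[X]) (u : ℂ) :
    f (D.g2 u) = D.g2 (f u) ∧ f (D.g1 u) = D.g1 (f u) ∧ f (D.g0 u) = D.g0 (f u) := by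
  refine ⟨?_, ?_, ?_⟩
  · simp only [Net.g2, map_sub, map_mul, map_pow, D.map_bb, D.map_mat']
  · simp only [Net.g1, map_sub, map_mul, map_neg, D.map_bb, D.map_mat', map_ofNat]
  · simp only [Net.g0, map_sub, map_mul, map_pow, D.map_bb, D.map_mat']

theorem gam_not_square {u ρ : N} (h : AlgebraicIndependent ℂ ![u, ρ]) (u0 : ℂ) (hu0 : u0 ≠ 0)
    (hδ : D.det u0 ≠ 0) (hB : D.discB u0 ≠ 0) :
    ∀ a ∈ IntermediateField.adjoin ℂ {u, ρ}, a ^ 2 ≠ D.gam u ρ := by
  have h1 := not_square_of_spec h (D.gam (MvPolynomial.X 0) (MvPolynomial.X 1)) u0 (by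
    intro p
    rw [D.map_gam]
    simp only [MvPolynomial.aeval_X, Matrix.cons_val_zero, Matrix.cons_val_one]
    have h2 := map_g D (Algebra.ofId ℂ ℂ[X]) u0
    have h3 : (Algebra.ofId ℂ ℂ[X]) u0 = C u0 := rfl
    rw [h3] at h2
    rw [D.gam_eq, ← h2.1, ← h2.2.1, ← h2.2.2]
    refine quad_not_square ?_ p
    rw [D.disc_gam]
    exact mul_ne_zero (mul_ne_zero (pow_ne_zero 4 hu0) (pow_ne_zero 2 hδ)) hB)
  rw [D.map_gam] at h1
  simpa only [MvPolynomial.aeval_X, Matrix.cons_val_zero, Matrix.cons_val_one] using h1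

theorem nz {x y : N} (h : AlgebraicIndependent ℂ ![x, y]) (P : MvPolynomial (Fin 2) ℂ) (a b : ℂ)
    {gN : N} {gC : ℂ} (h1 : MvPolynomial.aeval ![x, y] P = gN)
    (h2 : MvPolynomial.aeval ![a, b] P = gC) (hC : gC ≠ 0) : gN ≠ 0 := by
  rw [← h1]
  apply ne_zero_of_point h P a b
  rw [h2]
  exact hC

end

/-- The polynomial data. -/
structure Data extends Net where
  /-- the coefficients of `c(u,ρ)` -/
  c : Fin 3 → Fin 4 → ℂ
  /-- the coefficients of `A(u,ρ)` -/
  a : Fin 4 → Fin 3 → ℂ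
  /-- the coefficients of `ε(u)` -/
  e : Fin 3 → ℂ
  /-- the linear form `A₀` -/
  A0 : Fin 3 → ℂ
  /-- the linear form `A₁` -/
  A1 : Fin 3 → ℂ
  /-- the coefficients of `Λ` -/
  lam : Fin 4 → Fin 3 → ℂ
  /-- the coefficients of `β(u,ρ)` -/
  b : Fin 3 → Fin 7 → ℂ

namespace Data

variable (D : Data)

/-- the coefficients of `F(t) = c B(t) - A E(t)` -/
def ff {R : Type*} [CommRing R] [Algebra ℂ R] (u ρ : R) (i : Fin 3) : R :=
  hv (d := 3) D.c u ρ 1 * D.bb u i - hv (d := 2) D.a u ρ 1 * D.ee u ρ i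

/-- The first identity, for the discriminant of `F`. -/
def DiscId (R : Type*) [CommRing R] [Algebra ℂ R] (u ρ : R) : Prop :=
  D.ff u ρ 1 ^ 2 - 4 * D.ff u ρ 0 * D.ff u ρ 2 = u ^ 2 * pv D.e u ^ 2 * hv (d := 6) D.b u ρ 1

/-- The second identity, for the twin. -/
def TwinId (R : Type*) [CommRing R] [Algebra ℂ R] (u : R) (x : Fin 3 → R) : Prop :=
  hv (d := 3) D.c u (u * x 0 - x 1) (-(x 2 + u * x 1)) +
    x 1 * hv (d := 2) D.a u (u * x 0 - x 1) (-(x 2 + u * x 1)) =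
  u * (pv D.e u ^ 2 * (D.a2 x * lin D.A0 x - (D.a1 x + u * D.a2 x) * lin D.A1 x) +
    (D.a2 x * u ^ 2 + D.a1 x * u + D.a0 x) * lv D.lam u x)

theorem discId_of {R : Type*} [CommRing R] [Algebra ℂ R] (h : ∀ u ρ : ℂ, D.DiscId ℂ u ρ)
    (u ρ : R) : D.DiscId R u ρ := by
  have h1 : D.DiscId (MvPolynomial (Fin 2) ℂ) (MvPolynomial.X 0) (MvPolynomial.X 1) := by
    unfold DiscId
    apply MvPolynomial.funext
    intro z
    have h2 := h (z 0) (z 1)
    unfold DiscId at h2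
    have h3 : ∀ p : MvPolynomial (Fin 2) ℂ, MvPolynomial.eval z p = MvPolynomial.aeval z p :=
      fun _ => rfl
    rw [h3, h3]
    simp only [ff, map_sub, map_mul, map_pow, map_hv, map_pv, Net.map_bb, Net.map_ee, map_one,
      map_ofNat, MvPolynomial.aeval_X]
    exact h2
  have h4 := congrArg (MvPolynomial.aeval ![u, ρ]) h1
  unfold DiscId
  simp only [ff, map_sub, map_mul, map_pow, map_hv, map_pv, Net.map_bb, Net.map_ee, map_one,
      map_ofNat, MvPolynomial.aeval_X, Matrix.cons_val_zero, Matrix.cons_val_one] at h4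
  exact h4

theorem twinId_of {R : Type*} [CommRing R] [Algebra ℂ R]
    (h : ∀ (u : ℂ) (x : Fin 3 → ℂ), D.TwinId ℂ u x) (u : R) (x : Fin 3 → R) : D.TwinId R u x := by
  have h1 : D.TwinId (MvPolynomial (Option (Fin 3)) ℂ) (MvPolynomial.X none)
      (fun i => MvPolynomial.X (some i)) := by
    unfold TwinId
    apply MvPolynomial.funext
    intro z
    have h2 := h (z none) (fun i => z (some i))
    unfold TwinId at h2
    have h3 : ∀ p : MvPolynomial (Option (Fin 3)) ℂ,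
        MvPolynomial.eval z p = MvPolynomial.aeval z p :=
      fun _ => rfl
    rw [h3, h3]
    simp only [map_add, map_sub, map_neg, map_mul, map_pow, map_hv, map_pv, map_lv, map_lin,
      Net.map_a2, Net.map_a1, Net.map_a0, MvPolynomial.aeval_X]
    exact h2
  let g : Option (Fin 3) → R := fun o => o.elim u x
  have h4 := congrArg (MvPolynomial.aeval g) h1
  unfold TwinId
  simp only [map_add, map_sub, map_neg, map_mul, map_pow, map_hv, map_pv, map_lv, map_lin,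
      Net.map_a2, Net.map_a1, Net.map_a0, MvPolynomial.aeval_X] at h4
  exact h4

/-- Nonvanishing at a point. -/
structure Generic (u0 ρ0 l0 v0 : ℂ) : Prop where
  hu : u0 ≠ 0
  hdet : D.det u0 ≠ 0
  he : pv D.e u0 ≠ 0
  hB : D.discB u0 ≠ 0
  hdel : D.del u0 ρ0 0 1 ≠ 0
  hff : D.ff u0 ρ0 0 ≠ 0
  hb : pv (fun j => D.b 1 j) ρ0 ^ 2 - 4 * pv (fun j => D.b 2 j) ρ0 * pv (fun j => D.b 0 j) ρ0 ≠ 0
  ha2 : D.a2 (D.xv u0 l0) ≠ 0
  hv0 : D.a2 (D.xv u0 l0) * v0 = -(D.a1 (D.xv u0 l0)) - u0 * D.a2 (D.xv u0 l0)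
  hm : D.al (D.xv u0 l0) 0 + v0 * D.be (D.xv u0 l0) 0 ≠ 0
  hdetv : D.det v0 ≠ 0
  hwv : wv D.toNet D.A0 D.A1 v0 1 ^ 2 - wv D.toNet D.A0 D.A1 v0 0 * wv D.toNet D.A0 D.A1 v0 2 ≠ 0

end Data

namespace Net

variable (D : Net)

/-- the homogeneous determinant `det (W M0 + V M1)` -/
def dh {R : Type*} [CommRing R] [Algebra ℂ R] (V W : R) : R :=
  Matrix.det (Matrix.of fun i j : Fin 3 =>
    W * algebraMap ℂ R (D.M0 i j) + V * algebraMap ℂ R (D.M1 i j))

theorem map_dh {R S : Type*} [CommRing R] [Algebra ℂ R] [CommRing S] [Algebra ℂ S]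
    (f : R →ₐ[ℂ] S) (V W : R) : f (D.dh V W) = D.dh (f V) (f W) := by
  simp only [dh, Matrix.det_fin_three, Matrix.of_apply, map_add, map_sub, map_mul,
    AlgHom.commutes]

theorem dh_eq {R : Type*} [CommRing R] [Algebra ℂ R] (v W : R) :
    D.dh (W * v) W = W ^ 3 * D.det v := by
  rw [D.det_eq]
  simp only [dh, mat, Matrix.det_fin_three, Matrix.of_apply]
  ring

end Net

section

variable {N : Type} [Field N] [Algebra ℂ N]

theorem pair_mem {u ρ a : N} {F : IntermediateField ℂ N} (hu : u ∈ F) (hρ : ρ ∈ F)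
    (ha : a ∈ ({u, ρ} : Set N)) : a ∈ F := by
  rcases ha with rfl | ha
  · exact hu
  · rw [Set.mem_singleton_iff.1 ha]; exact hρ

theorem mainN (D : Data) [IsAlgClosed N] {K : Type} [Field K] [Algebra ℂ K]
    (m : K →ₐ[ℂ] N) (u ρ t θ : N) (hind : AlgebraicIndependent ℂ ![u, ρ])
    (hm : m.fieldRange = IntermediateField.adjoin ℂ {u, ρ, t, θ})
    (hA : hv (d := 2) D.a u ρ 1 + θ ^ 2 * (D.bb u 0 * t ^ 2 + D.bb u 1 * t + D.bb u 2) = 0)
    (hc : hv (d := 3) D.c u ρ 1 + θ ^ 2 * (D.ee u ρ 0 * t ^ 2 + D.ee u ρ 1 * t + D.ee u ρ 2) = 0)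
    (hdisc : D.DiscId N u ρ) (htwin : ∀ x : Fin 3 → N, D.TwinId N u x)
    {u0 ρ0 l0 v0 : ℂ} (hg : D.Generic u0 ρ0 l0 v0) : PointsEquivalent K := by
  have : CharZero N := charZero_of_injective_algebraMap (algebraMap ℂ N).injective
  obtain ⟨F, hF⟩ : ∃ F, F = IntermediateField.adjoin ℂ {u, ρ} := ⟨_, rfl⟩
  have huF : u ∈ F := by rw [hF]; exact IntermediateField.subset_adjoin _ _ (by simp)
  have hρF : ρ ∈ F := by rw [hF]; exact IntermediateField.subset_adjoin _ _ (by simp)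
  have hmatF : ∀ i j, D.mat u i j ∈ F := fun i j => by
    unfold Net.mat
    exact add_mem (F.algebraMap_mem _) (mul_mem huF (F.algebraMap_mem _))
  have hbbF : ∀ i, D.bb u i ∈ F := fun i => by
    unfold Net.bb
    exact sub_mem (add_mem (hmatF _ _) (mul_mem huF (hmatF _ _)))
      (mul_mem (pow_mem huF 2) (hmatF _ _))
  have heeF : ∀ i, D.ee u ρ i ∈ F := fun i => by
    unfold Net.ee
    exact sub_mem (mul_mem hρF (hmatF _ _)) (mul_mem huF (hmatF _ _))
  have hcF : hv (d := 3) D.c u ρ 1 ∈ F := hv_mem _ F huF hρF (one_mem F)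
  have haF : hv (d := 2) D.a u ρ 1 ∈ F := hv_mem _ F huF hρF (one_mem F)
  -- nonvanishing
  have hu0 : u ≠ 0 := nz hind (MvPolynomial.X 0) u0 ρ0 (by simp) (by simp) hg.hu
  have hδ : D.det u ≠ 0 := nz hind (D.det (MvPolynomial.X 0)) u0 ρ0
    (by rw [D.map_det]; simp) (by rw [D.map_det]; simp) hg.hdet
  have hε : pv D.e u ≠ 0 := nz hind (pv D.e (MvPolynomial.X 0)) u0 ρ0
    (by rw [map_pv]; simp) (by rw [map_pv]; simp) hg.he
  have hdB : D.discB u ≠ 0 := nz hind (D.discB (MvPolynomial.X 0)) u0 ρ0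
    (by rw [D.map_discB]; simp) (by rw [D.map_discB]; simp) hg.hB
  have hdel : D.del u ρ 0 1 ≠ 0 := nz hind (D.del (MvPolynomial.X 0) (MvPolynomial.X 1) 0 1) u0 ρ0
    (by rw [D.map_del]; simp) (by rw [D.map_del]; simp) hg.hdel
  have hff : D.ff u ρ 0 ≠ 0 := nz hind (D.ff (MvPolynomial.X 0) (MvPolynomial.X 1) 0) u0 ρ0
    (by simp only [Data.ff, map_sub, map_mul, D.map_bb, D.map_ee, map_hv, MvPolynomial.aeval_X,
      Matrix.cons_val_zero, Matrix.cons_val_one, map_one])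
    (by simp only [Data.ff, map_sub, map_mul, D.map_bb, D.map_ee, map_hv, MvPolynomial.aeval_X,
      Matrix.cons_val_zero, Matrix.cons_val_one, map_one])
    hg.hff
  have hsq := gam_not_square D.toNet hind u0 hg.hu hg.hdet hg.hB
  rw [← hF] at hsq
  -- the element l
  obtain ⟨y, hy⟩ := IsAlgClosed.exists_pow_nat_eq (D.gam u ρ) two_pos
  obtain ⟨l, hl⟩ : ∃ l, l = (y - D.del u ρ 0 2) / D.del u ρ 0 1 := ⟨_, rfl⟩
  have hJ : D.del u ρ 0 1 * l ^ 2 + 2 * D.del u ρ 0 2 * l + D.del u ρ 1 2 = 0 := by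
    have h3 : D.del u ρ 0 1 * l = y - D.del u ρ 0 2 := by rw [hl]; field_simp
    have h4 : D.del u ρ 0 1 * (D.del u ρ 0 1 * l ^ 2 + 2 * D.del u ρ 0 2 * l + D.del u ρ 1 2) = 0 := by
      have h5 : D.del u ρ 0 1 * (D.del u ρ 0 1 * l ^ 2 + 2 * D.del u ρ 0 2 * l + D.del u ρ 1 2) =
          (D.del u ρ 0 1 * l) ^ 2 + 2 * D.del u ρ 0 2 * (D.del u ρ 0 1 * l) +
            D.del u ρ 0 1 * D.del u ρ 1 2 := by ring
      rw [h5, h3]
      have h6 : D.gam u ρ = D.del u ρ 0 2 ^ 2 - D.del u ρ 1 2 * D.del u ρ 0 1 := rfl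
      rw [h6] at hy
      linear_combination hy
    exact (mul_eq_zero.1 h4).resolve_left hdel
  obtain ⟨d, hd⟩ : ∃ d, d = D.del u ρ 0 1 := ⟨_, rfl⟩
  have hd0 : d ≠ 0 := by rw [hd]; exact hdel
  obtain ⟨z, hz⟩ : ∃ z, z = -(2 * l * D.bb u 0 + D.bb u 1) / d := ⟨_, rfl⟩
  obtain ⟨X, hX⟩ : ∃ X, X = (D.ee u ρ 1 + 2 * l * D.ee u ρ 0) / d := ⟨_, rfl⟩
  have hdd : d = D.bb u 0 * D.ee u ρ 1 - D.bb u 1 * D.ee u ρ 0 := by rw [hd]; rfl
  have hr0 : X * D.bb u 0 + z * D.ee u ρ 0 = 1 := by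
    rw [hX, hz]
    field_simp
    rw [hdd]
    ring
  have hr1 : X * D.bb u 1 + z * D.ee u ρ 1 = -2 * l := by
    rw [hX, hz]
    field_simp
    rw [hdd]
    ring
  have hJ' : (D.bb u 0 * D.ee u ρ 1 - D.bb u 1 * D.ee u ρ 0) * l ^ 2 +
      2 * (D.bb u 0 * D.ee u ρ 2 - D.bb u 2 * D.ee u ρ 0) * l +
      (D.bb u 1 * D.ee u ρ 2 - D.bb u 2 * D.ee u ρ 1) = 0 := hJ
  have hr2 : X * D.bb u 2 + z * D.ee u ρ 2 = l ^ 2 := by
    rw [hX, hz]
    field_simp
    rw [hdd]
    linear_combination (-1 : N) * hJ'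
  have hz0 : z ≠ 0 := by
    intro h
    have h3 : 2 * l * D.bb u 0 + D.bb u 1 = 0 := by
      rw [hz, div_eq_zero_iff] at h
      rcases h with h | h
      · exact neg_eq_zero.1 h
      · exact absurd h hd0
    have h4 : D.discB u * d = 0 := by
      rw [hdd]
      unfold Net.discB
      linear_combination 4 * D.bb u 0 ^ 2 * hJ' +
        (-(D.bb u 0 * D.ee u ρ 1 - D.bb u 1 * D.ee u ρ 0) * (2 * l * D.bb u 0 - D.bb u 1) -
          4 * D.bb u 0 * (D.bb u 0 * D.ee u ρ 2 - D.bb u 2 * D.ee u ρ 0)) * h3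
    exact (mul_ne_zero hdB hd0) h4
  -- the vector X(u,l)
  have hV : (D.mat u).mulVec ![X + z * ρ, X * u, -(X * u ^ 2) - z * u] = Net.sq l := by
    ext i
    have h3 : (D.mat u).mulVec ![X + z * ρ, X * u, -(X * u ^ 2) - z * u] i =
        X * D.bb u i + z * D.ee u ρ i := by
      simp only [Matrix.mulVec, dotProduct, Fin.sum_univ_three, Matrix.cons_val_zero,
        Matrix.cons_val_one, Matrix.cons_val, Net.bb, Net.ee]
      ring
    rw [h3]
    fin_cases i
    · exact hr0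
    · exact hr1
    · exact hr2
  have hxv : D.xv u l = D.det u • ![X + z * ρ, X * u, -(X * u ^ 2) - z * u] := by
    unfold Net.xv
    rw [← hV, Matrix.mulVec_mulVec, Matrix.adjugate_mul, Matrix.smul_mulVec, Matrix.one_mulVec]
    rfl
  have hx0 : D.xv u l 0 = D.det u * (X + z * ρ) := by rw [hxv]; rfl
  have hx1 : D.xv u l 1 = D.det u * (X * u) := by rw [hxv]; rfl
  have hx2 : D.xv u l 2 = D.det u * (-(X * u ^ 2) - z * u) := by rw [hxv]; rfl
  have hys : u * D.xv u l 0 - D.xv u l 1 = D.det u * z * u * ρ := by rw [hx0, hx1]; ring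
  have hzs : -(D.xv u l 2 + u * D.xv u l 1) = D.det u * z * u * 1 := by rw [hx1, hx2]; ring
  have hk0 : D.det u * z * u ≠ 0 := mul_ne_zero (mul_ne_zero hδ hz0) hu0
  -- the field ℂ(u,l)
  obtain ⟨G, hG⟩ : ∃ G, G = IntermediateField.adjoin ℂ {u, l} := ⟨_, rfl⟩
  have huG : u ∈ G := by rw [hG]; exact IntermediateField.subset_adjoin _ _ (by simp)
  have hlG : l ∈ G := by rw [hG]; exact IntermediateField.subset_adjoin _ _ (by simp)
  have hxG : ∀ i, D.xv u l i ∈ G := xv_mem D.toNet G huG hlG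
  have hzsG : D.det u * z * u ∈ G := by
    rw [mul_one] at hzs
    rw [← hzs]
    exact neg_mem (add_mem (hxG 2) (mul_mem huG (hxG 1)))
  have hρG : ρ ∈ G := by
    have h3 : ρ = (u * D.xv u l 0 - D.xv u l 1) / (D.det u * z * u) := by
      rw [hys]
      field_simp
    rw [h3]
    exact div_mem (sub_mem (mul_mem huG (hxG 0)) (hxG 1)) hzsG
  have hzG : z ∈ G := by
    have h3 : z = (D.det u * z * u) / (D.det u * u) := by field_simp
    rw [h3]
    exact div_mem hzsG (mul_mem (det_mem D.toNet G huG) huG)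
  have hFG : F ≤ G := by
    rw [hF, IntermediateField.adjoin_le_iff]
    intro a ha
    exact pair_mem huG hρG ha
  have hul : AlgebraicIndependent ℂ ![u, l] := by
    apply indep_of_algebraic hind
    intro i
    rw [range_pair, ← hG]
    refine isAlgebraic_mem _ _ ?_
    fin_cases i
    · exact huG
    · exact hρG
  -- the element w
  obtain ⟨w, hw⟩ : ∃ w, w = θ * (t - l) := ⟨_, rfl⟩
  have hw2 : w ^ 2 = -(X * hv (d := 2) D.a u ρ 1 + z * hv (d := 3) D.c u ρ 1) := by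
    have h3 : w ^ 2 = θ ^ 2 * (t ^ 2 + (-2 * l) * t + l ^ 2) := by rw [hw]; ring
    have h4 : (t ^ 2 + (-2 * l) * t + l ^ 2) =
        X * (D.bb u 0 * t ^ 2 + D.bb u 1 * t + D.bb u 2) +
        z * (D.ee u ρ 0 * t ^ 2 + D.ee u ρ 1 * t + D.ee u ρ 2) := by
      linear_combination (-t ^ 2) * hr0 + (-t) * hr1 - hr2
    rw [h3, h4]
    linear_combination X * hA + z * hc
  have hTw := htwin (D.xv u l)
  unfold Data.TwinId at hTw
  rw [hys, hzs, hv_smul, hv_smul, D.root_u, zero_mul, add_zero] at hTw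
  have hTw2 : -(D.det u ^ 3 * z ^ 2 * u ^ 2 * w ^ 2) = pv D.e u ^ 2 *
      (D.a2 (D.xv u l) * lin D.A0 (D.xv u l) -
      (D.a1 (D.xv u l) + u * D.a2 (D.xv u l)) * lin D.A1 (D.xv u l)) := by
    apply mul_left_cancel₀ hu0
    rw [← hTw, hw2, hx1]
    ring
  -- the element v
  have ha2 : D.a2 (D.xv u l) ≠ 0 := nz hul (D.a2 (D.xv (MvPolynomial.X 0) (MvPolynomial.X 1))) u0 l0
    (by rw [D.map_a2]; simp only [D.map_xv]; simp) (by rw [D.map_a2]; simp only [D.map_xv]; simp)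
    hg.ha2
  obtain ⟨v, hv'⟩ : ∃ v, v = -(D.a1 (D.xv u l)) / D.a2 (D.xv u l) - u := ⟨_, rfl⟩
  have hv1 : D.a2 (D.xv u l) * v = -(D.a1 (D.xv u l)) - u * D.a2 (D.xv u l) := by
    rw [hv']
    field_simp
  obtain ⟨m1, hm1⟩ : ∃ m1, m1 = D.al (D.xv u l) 0 + v * D.be (D.xv u l) 0 := ⟨_, rfl⟩
  have hm10 : m1 ≠ 0 := by
    have h3 : D.a2 (D.xv u l) * D.al (D.xv u l) 0 +
        (-(D.a1 (D.xv u l)) - u * D.a2 (D.xv u l)) * D.be (D.xv u l) 0 ≠ 0 := by
      refine nz hul (D.a2 (D.xv (MvPolynomial.X 0) (MvPolynomial.X 1)) *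
        D.al (D.xv (MvPolynomial.X 0) (MvPolynomial.X 1)) 0 +
        (-(D.a1 (D.xv (MvPolynomial.X 0) (MvPolynomial.X 1))) -
          (MvPolynomial.X 0) * D.a2 (D.xv (MvPolynomial.X 0) (MvPolynomial.X 1))) *
          D.be (D.xv (MvPolynomial.X 0) (MvPolynomial.X 1)) 0) u0 l0 ?_ (gC :=
          D.a2 (D.xv u0 l0) * D.al (D.xv u0 l0) 0 +
        (-(D.a1 (D.xv u0 l0)) - u0 * D.a2 (D.xv u0 l0)) * D.be (D.xv u0 l0) 0) ?_ ?_
      · simp only [map_add, map_sub, map_neg, map_mul, D.map_a2, D.map_a1, D.map_al, D.map_be,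
          D.map_xv, MvPolynomial.aeval_X, Matrix.cons_val_zero, Matrix.cons_val_one]
      · simp only [map_add, map_sub, map_neg, map_mul, D.map_a2, D.map_a1, D.map_al, D.map_be,
          D.map_xv, MvPolynomial.aeval_X, Matrix.cons_val_zero, Matrix.cons_val_one]
      · rw [← hg.hv0]
        have h4 := mul_ne_zero hg.ha2 hg.hm
        intro h5
        apply h4
        rw [← h5]
        ring
    intro h4
    apply h3
    rw [← hv1]
    rw [hm1] at h4
    linear_combination D.a2 (D.xv u l) * h4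
  have hδv : D.det v ≠ 0 := by
    have h3 : D.dh (-(D.a1 (D.xv u l)) - u * D.a2 (D.xv u l)) (D.a2 (D.xv u l)) ≠ 0 := by
      refine nz hul (D.dh (-(D.a1 (D.xv (MvPolynomial.X 0) (MvPolynomial.X 1))) -
          (MvPolynomial.X 0) * D.a2 (D.xv (MvPolynomial.X 0) (MvPolynomial.X 1)))
          (D.a2 (D.xv (MvPolynomial.X 0) (MvPolynomial.X 1)))) u0 l0 ?_ (gC :=
          D.dh (-(D.a1 (D.xv u0 l0)) - u0 * D.a2 (D.xv u0 l0)) (D.a2 (D.xv u0 l0))) ?_ ?_
      · simp only [map_sub, map_neg, map_mul, D.map_a2, D.map_a1, D.map_dh,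
          D.map_xv, MvPolynomial.aeval_X, Matrix.cons_val_zero, Matrix.cons_val_one]
      · simp only [map_sub, map_neg, map_mul, D.map_a2, D.map_a1, D.map_dh,
          D.map_xv, MvPolynomial.aeval_X, Matrix.cons_val_zero, Matrix.cons_val_one]
      · rw [← hg.hv0, D.dh_eq]
        exact mul_ne_zero (pow_ne_zero 3 hg.ha2) hg.hdetv
    intro h4
    apply h3
    rw [← hv1, D.dh_eq, h4, mul_zero]
  obtain ⟨p, hp⟩ : ∃ p, p = -(D.al (D.xv u l) 1 + v * D.be (D.xv u l) 1) / (2 * m1) := ⟨_, rfl⟩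
  obtain ⟨-, hGvp, -⟩ := geiser D.toNet hδ ha2 v m1 p hv' hm1 hm10 hp hδv
  have hvp : AlgebraicIndependent ℂ ![v, p] := by
    apply indep_of_algebraic hul
    intro i
    rw [range_pair, ← hGvp]
    refine isAlgebraic_mem _ _ ?_
    fin_cases i
    · rw [← hG]; exact huG
    · rw [← hG]; exact hlG
  have hwd : wv D.toNet D.A0 D.A1 v 1 ^ 2 - wv D.toNet D.A0 D.A1 v 0 * wv D.toNet D.A0 D.A1 v 2 ≠ 0 := by
    refine nz hvp (wv D.toNet D.A0 D.A1 (MvPolynomial.X 0) 1 ^ 2 -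
      wv D.toNet D.A0 D.A1 (MvPolynomial.X 0) 0 * wv D.toNet D.A0 D.A1 (MvPolynomial.X 0) 2) v0 0
      ?_ ?_ hg.hwv
    · simp only [map_sub, map_mul, map_pow, map_wv, MvPolynomial.aeval_X, Matrix.cons_val_zero]
    · simp only [map_sub, map_mul, map_pow, map_wv, MvPolynomial.aeval_X, Matrix.cons_val_zero]
  have hconic : IsConicType G w := by
    rw [hG]
    refine tside D.toNet D.A0 D.A1 hul hδ ha2 v m1 hv' hm1 hm10 hδv hwd w
      (D.det u ^ 2 * u * z / pv D.e u) ?_ ?_ ?_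
    · rw [← hG]
      exact div_mem (mul_mem (mul_mem (pow_mem (det_mem D.toNet G huG) 2) huG) hzG)
        (pv_mem _ G huG)
    · exact div_ne_zero (mul_ne_zero (mul_ne_zero (pow_ne_zero 2 hδ) hu0) hz0) hε
    · have h3 : (D.det u ^ 2 * u * z / pv D.e u * w) ^ 2 =
          -(D.det u * (-(D.det u ^ 3 * z ^ 2 * u ^ 2 * w ^ 2))) / pv D.e u ^ 2 := by
        field_simp
      rw [h3, hTw2]
      field_simp
  -- the conic bundle of t
  have hFt : D.ff u ρ 0 * t ^ 2 + D.ff u ρ 1 * t + D.ff u ρ 2 = 0 := by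
    unfold Data.ff
    linear_combination (D.bb u 0 * t ^ 2 + D.bb u 1 * t + D.bb u 2) * hc -
      (D.ee u ρ 0 * t ^ 2 + D.ee u ρ 1 * t + D.ee u ρ 2) * hA
  obtain ⟨T, hT⟩ : ∃ T, T = 2 * D.ff u ρ 0 * t + D.ff u ρ 1 := ⟨_, rfl⟩
  have hT2 : T ^ 2 = u ^ 2 * pv D.e u ^ 2 * hv (d := 6) D.b u ρ 1 := by
    have h3 := hdisc
    unfold Data.DiscId at h3
    rw [← h3, hT]
    linear_combination 4 * D.ff u ρ 0 * hFt
  have hffF : ∀ i, D.ff u ρ i ∈ F := fun i => by
    unfold Data.ff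
    exact sub_mem (mul_mem hcF (hbbF i)) (mul_mem haF (heeF i))
  have hconic2 : IsConicType F T := by
    have hρρ : ρ ∈ ℂ⟮ρ⟯ := IntermediateField.mem_adjoin_simple_self ℂ ρ
    refine ⟨ρ, u, pv (fun j => D.b 2 j) ρ, pv (fun j => D.b 1 j) ρ, pv (fun j => D.b 0 j) ρ,
      (u * pv D.e u)⁻¹, indep_swap hind, ?_, pv_mem _ _ hρρ, pv_mem _ _ hρρ, pv_mem _ _ hρρ,
      ?_, ?_, ?_, ?_⟩
    · rw [hF, Set.pair_comm]
    · refine nz (indep_swap hind) (pv (fun j => D.b 1 j) (MvPolynomial.X 0) ^ 2 -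
        4 * pv (fun j => D.b 2 j) (MvPolynomial.X 0) * pv (fun j => D.b 0 j) (MvPolynomial.X 0))
        ρ0 0 ?_ ?_ hg.hb
      · simp only [map_sub, map_mul, map_pow, map_pv, map_ofNat, MvPolynomial.aeval_X,
          Matrix.cons_val_zero]
      · simp only [map_sub, map_mul, map_pow, map_pv, map_ofNat, MvPolynomial.aeval_X,
          Matrix.cons_val_zero]
    · exact inv_mem (mul_mem huF (pv_mem _ F huF))
    · exact inv_ne_zero (mul_ne_zero hu0 hε)
    · rw [mul_pow, hT2]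
      have h3 : hv (d := 6) D.b u ρ 1 = pv (fun j => D.b 2 j) ρ * u ^ 2 +
          pv (fun j => D.b 1 j) ρ * u + pv (fun j => D.b 0 j) ρ := by
        simp only [hv, pv, Fin.sum_univ_three, one_pow, mul_one]
        simp only [Finset.sum_mul]
        rw [add_comm, add_comm (∑ j, algebraMap ℂ N (D.b 0 j) * _ * _), ← add_assoc]
        congr 1
        · congr 1
          · refine Finset.sum_congr rfl fun j _ => ?_
            simp only [Fin.val_two]
            ring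
          · refine Finset.sum_congr rfl fun j _ => ?_
            simp only [Fin.val_one]
            ring
        · refine Finset.sum_congr rfl fun j _ => ?_
          simp only [Fin.val_zero]
          ring
      rw [← h3]
      field_simp
  have hFT : F ⊔ IntermediateField.adjoin ℂ {T} = F ⊔ IntermediateField.adjoin ℂ {t} := by
    apply le_antisymm
    · have hle : F ≤ F ⊔ IntermediateField.adjoin ℂ {t} := le_sup_left
      refine sup_adjoin_le hle ?_
      rw [hT]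
      exact add_mem (mul_mem (mul_mem (ofNat_mem _ 2) (hle (hffF 0))) (mem_sup_adjoin F t))
        (hle (hffF 1))
    · have hle : F ≤ F ⊔ IntermediateField.adjoin ℂ {T} := le_sup_left
      refine sup_adjoin_le hle ?_
      have h3 : t = (T - D.ff u ρ 1) / (2 * D.ff u ρ 0) := by
        rw [hT]
        field_simp
        ring
      rw [h3]
      exact div_mem (sub_mem (mem_sup_adjoin F T) (hle (hffF 1)))
        (mul_mem (ofNat_mem _ 2) (hle (hffF 0)))
  -- generation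
  have hF2eq : D.ff u ρ 0 = -(θ ^ 2 * (D.del u ρ 0 1 * t + D.del u ρ 0 2)) := by
    unfold Data.ff Net.del
    linear_combination (-(D.ee u ρ 0)) * hA + D.bb u 0 * hc
  have hθ0 : θ ≠ 0 := by
    rintro rfl
    apply hff
    rw [hF2eq]
    ring
  have hdelF : ∀ i j, D.del u ρ i j ∈ F := fun i j => by
    unfold Net.del
    exact sub_mem (mul_mem (hbbF _) (heeF _)) (mul_mem (hbbF _) (heeF _))
  have hgen : m.fieldRange = F ⊔ IntermediateField.adjoin ℂ {θ} := by
    rw [hm]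
    apply le_antisymm
    · have hle : F ≤ F ⊔ IntermediateField.adjoin ℂ {θ} := le_sup_left
      have hθm := mem_sup_adjoin F θ
      have htm : t ∈ F ⊔ IntermediateField.adjoin ℂ {θ} := by
        have h3 : t = -(D.ff u ρ 0 / θ ^ 2 + D.del u ρ 0 2) / D.del u ρ 0 1 := by
          rw [hF2eq]
          field_simp
          ring
        rw [h3]
        exact div_mem (neg_mem (add_mem (div_mem (hle (hffF 0)) (pow_mem hθm 2))
          (hle (hdelF 0 2)))) (hle (hdelF 0 1))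
      rw [IntermediateField.adjoin_le_iff]
      rintro a (rfl | rfl | rfl | ha)
      · exact hle huF
      · exact hle hρF
      · exact htm
      · rw [Set.mem_singleton_iff.1 ha]; exact hθm
    · refine sup_adjoin_le ?_ (IntermediateField.subset_adjoin _ _ (by simp))
      rw [hF]
      apply IntermediateField.adjoin.mono
      intro a ha
      rcases ha with rfl | ha
      · simp
      · rw [Set.mem_singleton_iff.1 ha]; simp
  refine twin_core F m (D.bb u 2) (D.bb u 1) (D.bb u 0) (D.ee u ρ 2) (D.ee u ρ 1) (D.ee u ρ 0)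
    (hv (d := 2) D.a u ρ 1) (hv (d := 3) D.c u ρ 1) t θ l (hbbF 2) (hbbF 1) (hbbF 0) (heeF 2)
    (heeF 1) (heeF 0) haF hcF hA hc hJ' hdel ?_ hsq hgen ?_ ?_
  · intro h3
    apply hff
    unfold Data.ff
    linear_combination h3
  · rw [← hw]
    have h3 : F ⊔ IntermediateField.adjoin ℂ {l, w} = G ⊔ IntermediateField.adjoin ℂ {w} := by
      apply le_antisymm
      · have hle : G ≤ G ⊔ IntermediateField.adjoin ℂ {w} := le_sup_left
        refine sup_le (hFG.trans hle) ?_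
        rw [IntermediateField.adjoin_le_iff]
        intro a ha
        exact pair_mem (hle hlG) (mem_sup_adjoin G w) ha
      · have hle : F ≤ F ⊔ IntermediateField.adjoin ℂ {l, w} := le_sup_left
        have hle2 : IntermediateField.adjoin ℂ {l, w} ≤ F ⊔ IntermediateField.adjoin ℂ {l, w} :=
          le_sup_right
        refine sup_adjoin_le ?_ (hle2 (IntermediateField.subset_adjoin _ _ (by simp)))
        rw [hG, IntermediateField.adjoin_le_iff]
        intro a ha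
        exact pair_mem (hle huF) (hle2 (IntermediateField.subset_adjoin _ _ (by simp))) ha
    rw [h3]
    exact conic_rational hconic
  · rw [← hFT]
    exact conic_rational hconic2

end

/-- **Theorem H.** -/
theorem main (D : Data) {K : Type} [Field K] [Algebra ℂ K] (u ρ t θ : K)
    (hind : AlgebraicIndependent ℂ ![u, ρ])
    (hgen : IntermediateField.adjoin ℂ {u, ρ, t, θ} = ⊤)
    (hA : hv (d := 2) D.a u ρ 1 + θ ^ 2 * (D.bb u 0 * t ^ 2 + D.bb u 1 * t + D.bb u 2) = 0)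
    (hc : hv (d := 3) D.c u ρ 1 + θ ^ 2 * (D.ee u ρ 0 * t ^ 2 + D.ee u ρ 1 * t + D.ee u ρ 2) = 0)
    (hdisc : ∀ u ρ : ℂ, D.DiscId ℂ u ρ) (htwin : ∀ (u : ℂ) (x : Fin 3 → ℂ), D.TwinId ℂ u x)
    {u0 ρ0 l0 v0 : ℂ} (hg : D.Generic u0 ρ0 l0 v0) : PointsEquivalent K := by
  let N := AlgebraicClosure K
  let m : K →ₐ[ℂ] N := IsScalarTower.toAlgHom ℂ K N
  have hinj : Function.Injective m := m.toRingHom.injective
  have hind' : AlgebraicIndependent ℂ ![m u, m ρ] := by
    have h := hind.map' (f := m) hinj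
    have h2 : (m ∘ ![u, ρ]) = ![m u, m ρ] := by
      funext i
      fin_cases i <;> rfl
    rwa [h2] at h
  have hm : m.fieldRange = IntermediateField.adjoin ℂ {m u, m ρ, m t, m θ} := by
    rw [AlgHom.fieldRange_eq_map, ← hgen, IntermediateField.adjoin_map]
    congr 1
    simp only [Set.image_insert_eq, Set.image_singleton]
  refine mainN D m (m u) (m ρ) (m t) (m θ) hind' hm ?_ ?_ (D.discId_of hdisc _ _)
    (fun x => D.twinId_of htwin _ _) hg
  · have h := congrArg m hA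
    simpa only [map_add, map_mul, map_pow, map_hv, D.map_bb, map_one, map_zero] using h
  · have h := congrArg m hc
    simpa only [map_add, map_mul, map_pow, map_hv, D.map_ee, map_one, map_zero] using h

end Vale.Agent.P297.H424
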