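import Vale.Agent.P297.H424.MainW

/-!
The general theorem, with a weaker condition for the twin.
-/

set_option linter.unusedSectionVars false

open CategoryTheory AlgebraicGeometry IntermediateField Polynomial

namespace Vale.Agent.P297.H424

open Vale.Agent.P297 Vale.Agent.P297.H839 Vale.Agent.P297.H109 Vale.Agent.P297.H600

/-- The identity for the twin, on the discriminant. -/
def Data.TwinV (D : Data) {R : Type*} [CommRing R] [Algebra ℂ R] (u : R) (x : Fin 3 → R) : Prop :=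
  D.a2 x * u ^ 2 + D.a1 x * u + D.a0 x = 0 →
  hv (d := 3) D.c u (u * x 0 - x 1) (-(x 2 + u * x 1)) +
    x 1 * hv (d := 2) D.a u (u * x 0 - x 1) (-(x 2 + u * x 1)) =
  u * (pv D.e u ^ 2 * (D.a2 x * lin D.A0 x - (D.a1 x + u * D.a2 x) * lin D.A1 x))

section

variable {N : Type} [Field N] [Algebra ℂ N]

theorem mainNV (D : Data) [IsAlgClosed N] {K : Type} [Field K] [Algebra ℂ K]
    (m : K →ₐ[ℂ] N) (u ρ t θ : N) (hind : AlgebraicIndependent ℂ ![u, ρ])
    (hm : m.fieldRange = IntermediateField.adjoin ℂ {u, ρ, t, θ})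
    (hA : hv (d := 2) D.a u ρ 1 + θ ^ 2 * (D.bb u 0 * t ^ 2 + D.bb u 1 * t + D.bb u 2) = 0)
    (hc : hv (d := 3) D.c u ρ 1 + θ ^ 2 * (D.ee u ρ 0 * t ^ 2 + D.ee u ρ 1 * t + D.ee u ρ 2) = 0)
    (hdisc : D.DiscId N u ρ) (htwin : ∀ x : Fin 3 → N, D.TwinV u x)
    (hg : D.GenW) : PointsEquivalent K := by
  obtain ⟨⟨u1, hu1, hdet1, hB1⟩, ⟨u2, he2⟩, ⟨u3, ρ3, hdel3⟩, ⟨u4, ρ4, hff4⟩, ⟨ρ5, hb5⟩,
    ⟨u6, l6, ha6⟩, hk, ⟨u7, l7, hm7⟩, ⟨v8, hw8⟩⟩ := hg
  have : CharZero N := charZero_of_injective_algebraMap (algebraMap ℂ N).injective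
  obtain ⟨F, hF⟩ : ∃ F, F = IntermediateField.adjoin ℂ {u, ρ} := ⟨_, rfl⟩
  have huF : u ∈ F := by rw [hF]; exact IntermediateField.subset_adjoin _ _ (by simp)
  have hρF : ρ ∈ F := by rw [hF]; exact IntermediateField.subset_adjoin _ _ (by simp)
  have hmatF : ∀ i j, D.mat u i j ∈ F := fun i j => by
    unfold Net.mat
    exact add_mem (F.algebraMap_mem _) (mul_mem huF (F.algebraMap_mem _))
  have hbbF : ∀ i, D.bb u i ∈ F := fun i => by
    unfold Net.bb
    exact sub_mem (add_mem (hmatF _ _) (mul_mem huF (hmatF _ _)))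
      (mul_mem (pow_mem huF 2) (hmatF _ _))
  have heeF : ∀ i, D.ee u ρ i ∈ F := fun i => by
    unfold Net.ee
    exact sub_mem (mul_mem hρF (hmatF _ _)) (mul_mem huF (hmatF _ _))
  have hcF : hv (d := 3) D.c u ρ 1 ∈ F := hv_mem _ F huF hρF (one_mem F)
  have haF : hv (d := 2) D.a u ρ 1 ∈ F := hv_mem _ F huF hρF (one_mem F)
  -- nonvanishing
  have hu0 : u ≠ 0 := nz hind (MvPolynomial.X 0) u1 0 (by simp) (by simp) hu1
  have hδ : D.det u ≠ 0 := nz hind (D.det (MvPolynomial.X 0)) u1 0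
    (by rw [D.map_det]; simp) (by rw [D.map_det]; simp) hdet1
  have hε : pv D.e u ≠ 0 := nz hind (pv D.e (MvPolynomial.X 0)) u2 0
    (by rw [map_pv]; simp) (by rw [map_pv]; simp) he2
  have hdB : D.discB u ≠ 0 := nz hind (D.discB (MvPolynomial.X 0)) u1 0
    (by rw [D.map_discB]; simp) (by rw [D.map_discB]; simp) hB1
  have hdel : D.del u ρ 0 1 ≠ 0 := nz hind (D.del (MvPolynomial.X 0) (MvPolynomial.X 1) 0 1) u3 ρ3
    (by rw [D.map_del]; simp) (by rw [D.map_del]; simp) hdel3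
  have hff : D.ff u ρ 0 ≠ 0 := nz hind (D.ff (MvPolynomial.X 0) (MvPolynomial.X 1) 0) u4 ρ4
    (by simp only [Data.ff, map_sub, map_mul, D.map_bb, D.map_ee, map_hv, MvPolynomial.aeval_X,
      Matrix.cons_val_zero, Matrix.cons_val_one, map_one])
    (by simp only [Data.ff, map_sub, map_mul, D.map_bb, D.map_ee, map_hv, MvPolynomial.aeval_X,
      Matrix.cons_val_zero, Matrix.cons_val_one, map_one])
    hff4
  have hsq := gam_not_square D.toNet hind u1 hu1 hdet1 hB1
  rw [← hF] at hsq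
  -- the element l
  obtain ⟨y, hy⟩ := IsAlgClosed.exists_pow_nat_eq (D.gam u ρ) two_pos
  obtain ⟨l, hl⟩ : ∃ l, l = (y - D.del u ρ 0 2) / D.del u ρ 0 1 := ⟨_, rfl⟩
  have hJ : D.del u ρ 0 1 * l ^ 2 + 2 * D.del u ρ 0 2 * l + D.del u ρ 1 2 = 0 := by
    have h3 : D.del u ρ 0 1 * l = y - D.del u ρ 0 2 := by rw [hl]; field_simp
    have h4 : D.del u ρ 0 1 * (D.del u ρ 0 1 * l ^ 2 + 2 * D.del u ρ 0 2 * l + D.del u ρ 1 2) = 0 := by
      have h5 : D.del u ρ 0 1 * (D.del u ρ 0 1 * l ^ 2 + 2 * D.del u ρ 0 2 * l + D.del u ρ 1 2) =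
          (D.del u ρ 0 1 * l) ^ 2 + 2 * D.del u ρ 0 2 * (D.del u ρ 0 1 * l) +
            D.del u ρ 0 1 * D.del u ρ 1 2 := by ring
      rw [h5, h3]
      have h6 : D.gam u ρ = D.del u ρ 0 2 ^ 2 - D.del u ρ 1 2 * D.del u ρ 0 1 := rfl
      rw [h6] at hy
      linear_combination hy
    exact (mul_eq_zero.1 h4).resolve_left hdel
  obtain ⟨d, hd⟩ : ∃ d, d = D.del u ρ 0 1 := ⟨_, rfl⟩
  have hd0 : d ≠ 0 := by rw [hd]; exact hdel
  obtain ⟨z, hz⟩ : ∃ z, z = -(2 * l * D.bb u 0 + D.bb u 1) / d := ⟨_, rfl⟩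
  obtain ⟨X, hX⟩ : ∃ X, X = (D.ee u ρ 1 + 2 * l * D.ee u ρ 0) / d := ⟨_, rfl⟩
  have hdd : d = D.bb u 0 * D.ee u ρ 1 - D.bb u 1 * D.ee u ρ 0 := by rw [hd]; rfl
  have hr0 : X * D.bb u 0 + z * D.ee u ρ 0 = 1 := by
    rw [hX, hz]
    field_simp
    rw [hdd]
    ring
  have hr1 : X * D.bb u 1 + z * D.ee u ρ 1 = -2 * l := by
    rw [hX, hz]
    field_simp
    rw [hdd]
    ring
  have hJ' : (D.bb u 0 * D.ee u ρ 1 - D.bb u 1 * D.ee u ρ 0) * l ^ 2 +
      2 * (D.bb u 0 * D.ee u ρ 2 - D.bb u 2 * D.ee u ρ 0) * l +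
      (D.bb u 1 * D.ee u ρ 2 - D.bb u 2 * D.ee u ρ 1) = 0 := hJ
  have hr2 : X * D.bb u 2 + z * D.ee u ρ 2 = l ^ 2 := by
    rw [hX, hz]
    field_simp
    rw [hdd]
    linear_combination (-1 : N) * hJ'
  have hz0 : z ≠ 0 := by
    intro h
    have h3 : 2 * l * D.bb u 0 + D.bb u 1 = 0 := by
      rw [hz, div_eq_zero_iff] at h
      rcases h with h | h
      · exact neg_eq_zero.1 h
      · exact absurd h hd0
    have h4 : D.discB u * d = 0 := by
      rw [hdd]
      unfold Net.discB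
      linear_combination 4 * D.bb u 0 ^ 2 * hJ' +
        (-(D.bb u 0 * D.ee u ρ 1 - D.bb u 1 * D.ee u ρ 0) * (2 * l * D.bb u 0 - D.bb u 1) -
          4 * D.bb u 0 * (D.bb u 0 * D.ee u ρ 2 - D.bb u 2 * D.ee u ρ 0)) * h3
    exact (mul_ne_zero hdB hd0) h4
  -- the vector X(u,l)
  have hV : (D.mat u).mulVec ![X + z * ρ, X * u, -(X * u ^ 2) - z * u] = Net.sq l := by
    ext i
    have h3 : (D.mat u).mulVec ![X + z * ρ, X * u, -(X * u ^ 2) - z * u] i =
        X * D.bb u i + z * D.ee u ρ i := by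
      simp only [Matrix.mulVec, dotProduct, Fin.sum_univ_three, Matrix.cons_val_zero,
        Matrix.cons_val_one, Matrix.cons_val, Net.bb, Net.ee]
      ring
    rw [h3]
    fin_cases i
    · exact hr0
    · exact hr1
    · exact hr2
  have hxv : D.xv u l = D.det u • ![X + z * ρ, X * u, -(X * u ^ 2) - z * u] := by
    unfold Net.xv
    rw [← hV, Matrix.mulVec_mulVec, Matrix.adjugate_mul, Matrix.smul_mulVec, Matrix.one_mulVec]
    rfl
  have hx0 : D.xv u l 0 = D.det u * (X + z * ρ) := by rw [hxv]; rfl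
  have hx1 : D.xv u l 1 = D.det u * (X * u) := by rw [hxv]; rfl
  have hx2 : D.xv u l 2 = D.det u * (-(X * u ^ 2) - z * u) := by rw [hxv]; rfl
  have hys : u * D.xv u l 0 - D.xv u l 1 = D.det u * z * u * ρ := by rw [hx0, hx1]; ring
  have hzs : -(D.xv u l 2 + u * D.xv u l 1) = D.det u * z * u * 1 := by rw [hx1, hx2]; ring
  have hk0 : D.det u * z * u ≠ 0 := mul_ne_zero (mul_ne_zero hδ hz0) hu0
  -- the field ℂ(u,l)
  obtain ⟨G, hG⟩ : ∃ G, G = IntermediateField.adjoin ℂ {u, l} := ⟨_, rfl⟩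
  have huG : u ∈ G := by rw [hG]; exact IntermediateField.subset_adjoin _ _ (by simp)
  have hlG : l ∈ G := by rw [hG]; exact IntermediateField.subset_adjoin _ _ (by simp)
  have hxG : ∀ i, D.xv u l i ∈ G := xv_mem D.toNet G huG hlG
  have hzsG : D.det u * z * u ∈ G := by
    rw [mul_one] at hzs
    rw [← hzs]
    exact neg_mem (add_mem (hxG 2) (mul_mem huG (hxG 1)))
  have hρG : ρ ∈ G := by
    have h3 : ρ = (u * D.xv u l 0 - D.xv u l 1) / (D.det u * z * u) := by
      rw [hys]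
      field_simp
    rw [h3]
    exact div_mem (sub_mem (mul_mem huG (hxG 0)) (hxG 1)) hzsG
  have hzG : z ∈ G := by
    have h3 : z = (D.det u * z * u) / (D.det u * u) := by field_simp
    rw [h3]
    exact div_mem hzsG (mul_mem (det_mem D.toNet G huG) huG)
  have hFG : F ≤ G := by
    rw [hF, IntermediateField.adjoin_le_iff]
    intro a ha
    exact pair_mem huG hρG ha
  have hul : AlgebraicIndependent ℂ ![u, l] := by
    apply indep_of_algebraic hind
    intro i
    rw [range_pair, ← hG]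
    refine isAlgebraic_mem _ _ ?_
    fin_cases i
    · exact huG
    · exact hρG
  -- the element w
  obtain ⟨w, hw⟩ : ∃ w, w = θ * (t - l) := ⟨_, rfl⟩
  have hw2 : w ^ 2 = -(X * hv (d := 2) D.a u ρ 1 + z * hv (d := 3) D.c u ρ 1) := by
    have h3 : w ^ 2 = θ ^ 2 * (t ^ 2 + (-2 * l) * t + l ^ 2) := by rw [hw]; ring
    have h4 : (t ^ 2 + (-2 * l) * t + l ^ 2) =
        X * (D.bb u 0 * t ^ 2 + D.bb u 1 * t + D.bb u 2) +
        z * (D.ee u ρ 0 * t ^ 2 + D.ee u ρ 1 * t + D.ee u ρ 2) := by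
      linear_combination (-t ^ 2) * hr0 + (-t) * hr1 - hr2
    rw [h3, h4]
    linear_combination X * hA + z * hc
  have hTw := htwin (D.xv u l) (D.root_u u l)
  rw [hys, hzs, hv_smul, hv_smul] at hTw
  have hTw2 : -(D.det u ^ 3 * z ^ 2 * u ^ 2 * w ^ 2) = pv D.e u ^ 2 *
      (D.a2 (D.xv u l) * lin D.A0 (D.xv u l) -
      (D.a1 (D.xv u l) + u * D.a2 (D.xv u l)) * lin D.A1 (D.xv u l)) := by
    apply mul_left_cancel₀ hu0
    rw [← hTw, hw2, hx1]
    ring
  -- the element v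
  have ha2 : D.a2 (D.xv u l) ≠ 0 := nz hul (D.a2 (D.xv (MvPolynomial.X 0) (MvPolynomial.X 1))) u6 l6
    (by rw [D.map_a2]; simp only [D.map_xv]; simp) (by rw [D.map_a2]; simp only [D.map_xv]; simp)
    ha6
  obtain ⟨v, hv'⟩ : ∃ v, v = -(D.a1 (D.xv u l)) / D.a2 (D.xv u l) - u := ⟨_, rfl⟩
  have hv1 : D.a2 (D.xv u l) * v = -(D.a1 (D.xv u l)) - u * D.a2 (D.xv u l) := by
    rw [hv']
    field_simp
  obtain ⟨m1, hm1⟩ : ∃ m1, m1 = D.al (D.xv u l) 0 + v * D.be (D.xv u l) 0 := ⟨_, rfl⟩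
  have hm10 : m1 ≠ 0 := by
    have h3 : D.a2 (D.xv u l) * D.al (D.xv u l) 0 +
        (-(D.a1 (D.xv u l)) - u * D.a2 (D.xv u l)) * D.be (D.xv u l) 0 ≠ 0 := by
      refine nz hul (D.a2 (D.xv (MvPolynomial.X 0) (MvPolynomial.X 1)) *
        D.al (D.xv (MvPolynomial.X 0) (MvPolynomial.X 1)) 0 +
        (-(D.a1 (D.xv (MvPolynomial.X 0) (MvPolynomial.X 1))) -
          (MvPolynomial.X 0) * D.a2 (D.xv (MvPolynomial.X 0) (MvPolynomial.X 1))) *
          D.be (D.xv (MvPolynomial.X 0) (MvPolynomial.X 1)) 0) u7 l7 ?_ ?_ hm7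
      · simp only [map_add, map_sub, map_neg, map_mul, D.map_a2, D.map_a1, D.map_al, D.map_be,
          D.map_xv, MvPolynomial.aeval_X, Matrix.cons_val_zero, Matrix.cons_val_one]
      · simp only [map_add, map_sub, map_neg, map_mul, D.map_a2, D.map_a1, D.map_al, D.map_be,
          D.map_xv, MvPolynomial.aeval_X, Matrix.cons_val_zero, Matrix.cons_val_one]
    intro h4
    apply h3
    rw [← hv1]
    rw [hm1] at h4
    linear_combination D.a2 (D.xv u l) * h4
  have hδv : D.det v ≠ 0 := by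
    intro h3
    have h4 : IsAlgebraic ℂ v := by
      refine ⟨D.det (Polynomial.X : ℂ[X]), ?_, ?_⟩
      · intro h5
        apply hdet1
        have h6 := congrArg (Polynomial.aeval u1) h5
        rw [D.map_det, Polynomial.aeval_X, map_zero] at h6
        exact h6
      · rw [D.map_det, Polynomial.aeval_X]
        exact h3
    have h5 : v ∈ (algebraMap ℂ N).range := by
      rw [← minpoly.degree_eq_one_iff]
      exact IsAlgClosed.degree_eq_one_of_irreducible ℂ (minpoly.irreducible h4.isIntegral)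
    obtain ⟨k, hkv⟩ := h5
    obtain ⟨u9, l9, h9⟩ := hk k
    have h6 : D.a2 (D.xv u l) * algebraMap ℂ N k ^ 2 + D.a1 (D.xv u l) * algebraMap ℂ N k +
        D.a0 (D.xv u l) ≠ 0 := by
      refine nz hul (D.a2 (D.xv (MvPolynomial.X 0) (MvPolynomial.X 1)) * MvPolynomial.C k ^ 2 +
        D.a1 (D.xv (MvPolynomial.X 0) (MvPolynomial.X 1)) * MvPolynomial.C k +
        D.a0 (D.xv (MvPolynomial.X 0) (MvPolynomial.X 1))) u9 l9 ?_ ?_ h9
      · simp only [map_add, map_mul, map_pow, D.map_a2, D.map_a1, D.map_a0, MvPolynomial.aeval_C,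
          D.map_xv, MvPolynomial.aeval_X, Matrix.cons_val_zero, Matrix.cons_val_one]
      · simp only [map_add, map_mul, map_pow, D.map_a2, D.map_a1, D.map_a0, MvPolynomial.aeval_C,
          D.map_xv, MvPolynomial.aeval_X, Matrix.cons_val_zero, Matrix.cons_val_one]
        rfl
    apply h6
    have h7 := D.root_u u l
    rw [hkv]
    linear_combination (v - u) * hv1 + h7
  obtain ⟨p, hp⟩ : ∃ p, p = -(D.al (D.xv u l) 1 + v * D.be (D.xv u l) 1) / (2 * m1) := ⟨_, rfl⟩
  obtain ⟨-, hGvp, -⟩ := geiser D.toNet hδ ha2 v m1 p hv' hm1 hm10 hp hδv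
  have hvp : AlgebraicIndependent ℂ ![v, p] := by
    apply indep_of_algebraic hul
    intro i
    rw [range_pair, ← hGvp]
    refine isAlgebraic_mem _ _ ?_
    fin_cases i
    · rw [← hG]; exact huG
    · rw [← hG]; exact hlG
  have hwd : wv D.toNet D.A0 D.A1 v 1 ^ 2 - wv D.toNet D.A0 D.A1 v 0 * wv D.toNet D.A0 D.A1 v 2 ≠ 0 := by
    refine nz hvp (wv D.toNet D.A0 D.A1 (MvPolynomial.X 0) 1 ^ 2 -
      wv D.toNet D.A0 D.A1 (MvPolynomial.X 0) 0 * wv D.toNet D.A0 D.A1 (MvPolynomial.X 0) 2) v8 0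
      ?_ ?_ hw8
    · simp only [map_sub, map_mul, map_pow, map_wv, MvPolynomial.aeval_X, Matrix.cons_val_zero]
    · simp only [map_sub, map_mul, map_pow, map_wv, MvPolynomial.aeval_X, Matrix.cons_val_zero]
  have hconic : IsConicType G w := by
    rw [hG]
    refine tside D.toNet D.A0 D.A1 hul hδ ha2 v m1 hv' hm1 hm10 hδv hwd w
      (D.det u ^ 2 * u * z / pv D.e u) ?_ ?_ ?_
    · rw [← hG]
      exact div_mem (mul_mem (mul_mem (pow_mem (det_mem D.toNet G huG) 2) huG) hzG)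
        (pv_mem _ G huG)
    · exact div_ne_zero (mul_ne_zero (mul_ne_zero (pow_ne_zero 2 hδ) hu0) hz0) hε
    · have h3 : (D.det u ^ 2 * u * z / pv D.e u * w) ^ 2 =
          -(D.det u * (-(D.det u ^ 3 * z ^ 2 * u ^ 2 * w ^ 2))) / pv D.e u ^ 2 := by
        field_simp
      rw [h3, hTw2]
      field_simp
  -- the conic bundle of t
  have hFt : D.ff u ρ 0 * t ^ 2 + D.ff u ρ 1 * t + D.ff u ρ 2 = 0 := by
    unfold Data.ff
    linear_combination (D.bb u 0 * t ^ 2 + D.bb u 1 * t + D.bb u 2) * hc -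
      (D.ee u ρ 0 * t ^ 2 + D.ee u ρ 1 * t + D.ee u ρ 2) * hA
  obtain ⟨T, hT⟩ : ∃ T, T = 2 * D.ff u ρ 0 * t + D.ff u ρ 1 := ⟨_, rfl⟩
  have hT2 : T ^ 2 = u ^ 2 * pv D.e u ^ 2 * hv (d := 6) D.b u ρ 1 := by
    have h3 := hdisc
    unfold Data.DiscId at h3
    rw [← h3, hT]
    linear_combination 4 * D.ff u ρ 0 * hFt
  have hffF : ∀ i, D.ff u ρ i ∈ F := fun i => by
    unfold Data.ff
    exact sub_mem (mul_mem hcF (hbbF i)) (mul_mem haF (heeF i))
  have hconic2 : IsConicType F T := by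
    have hρρ : ρ ∈ ℂ⟮ρ⟯ := IntermediateField.mem_adjoin_simple_self ℂ ρ
    refine ⟨ρ, u, pv (fun j => D.b 2 j) ρ, pv (fun j => D.b 1 j) ρ, pv (fun j => D.b 0 j) ρ,
      (u * pv D.e u)⁻¹, indep_swap hind, ?_, pv_mem _ _ hρρ, pv_mem _ _ hρρ, pv_mem _ _ hρρ,
      ?_, ?_, ?_, ?_⟩
    · rw [hF, Set.pair_comm]
    · refine nz (indep_swap hind) (pv (fun j => D.b 1 j) (MvPolynomial.X 0) ^ 2 -
        4 * pv (fun j => D.b 2 j) (MvPolynomial.X 0) * pv (fun j => D.b 0 j) (MvPolynomial.X 0))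
        ρ5 0 ?_ ?_ hb5
      · simp only [map_sub, map_mul, map_pow, map_pv, map_ofNat, MvPolynomial.aeval_X,
          Matrix.cons_val_zero]
      · simp only [map_sub, map_mul, map_pow, map_pv, map_ofNat, MvPolynomial.aeval_X,
          Matrix.cons_val_zero]
    · exact inv_mem (mul_mem huF (pv_mem _ F huF))
    · exact inv_ne_zero (mul_ne_zero hu0 hε)
    · rw [mul_pow, hT2]
      have h3 : hv (d := 6) D.b u ρ 1 = pv (fun j => D.b 2 j) ρ * u ^ 2 +
          pv (fun j => D.b 1 j) ρ * u + pv (fun j => D.b 0 j) ρ := by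
        simp only [hv, pv, Fin.sum_univ_three, one_pow, mul_one]
        simp only [Finset.sum_mul]
        rw [add_comm, add_comm (∑ j, algebraMap ℂ N (D.b 0 j) * _ * _), ← add_assoc]
        congr 1
        · congr 1
          · refine Finset.sum_congr rfl fun j _ => ?_
            simp only [Fin.val_two]
            ring
          · refine Finset.sum_congr rfl fun j _ => ?_
            simp only [Fin.val_one]
            ring
        · refine Finset.sum_congr rfl fun j _ => ?_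
          simp only [Fin.val_zero]
          ring
      rw [← h3]
      field_simp
  have hFT : F ⊔ IntermediateField.adjoin ℂ {T} = F ⊔ IntermediateField.adjoin ℂ {t} := by
    apply le_antisymm
    · have hle : F ≤ F ⊔ IntermediateField.adjoin ℂ {t} := le_sup_left
      refine sup_adjoin_le hle ?_
      rw [hT]
      exact add_mem (mul_mem (mul_mem (ofNat_mem _ 2) (hle (hffF 0))) (mem_sup_adjoin F t))
        (hle (hffF 1))
    · have hle : F ≤ F ⊔ IntermediateField.adjoin ℂ {T} := le_sup_left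
      refine sup_adjoin_le hle ?_
      have h3 : t = (T - D.ff u ρ 1) / (2 * D.ff u ρ 0) := by
        rw [hT]
        field_simp
        ring
      rw [h3]
      exact div_mem (sub_mem (mem_sup_adjoin F T) (hle (hffF 1)))
        (mul_mem (ofNat_mem _ 2) (hle (hffF 0)))
  -- generation
  have hF2eq : D.ff u ρ 0 = -(θ ^ 2 * (D.del u ρ 0 1 * t + D.del u ρ 0 2)) := by
    unfold Data.ff Net.del
    linear_combination (-(D.ee u ρ 0)) * hA + D.bb u 0 * hc
  have hθ0 : θ ≠ 0 := by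
    rintro rfl
    apply hff
    rw [hF2eq]
    ring
  have hdelF : ∀ i j, D.del u ρ i j ∈ F := fun i j => by
    unfold Net.del
    exact sub_mem (mul_mem (hbbF _) (heeF _)) (mul_mem (hbbF _) (heeF _))
  have hgen : m.fieldRange = F ⊔ IntermediateField.adjoin ℂ {θ} := by
    rw [hm]
    apply le_antisymm
    · have hle : F ≤ F ⊔ IntermediateField.adjoin ℂ {θ} := le_sup_left
      have hθm := mem_sup_adjoin F θ
      have htm : t ∈ F ⊔ IntermediateField.adjoin ℂ {θ} := by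
        have h3 : t = -(D.ff u ρ 0 / θ ^ 2 + D.del u ρ 0 2) / D.del u ρ 0 1 := by
          rw [hF2eq]
          field_simp
          ring
        rw [h3]
        exact div_mem (neg_mem (add_mem (div_mem (hle (hffF 0)) (pow_mem hθm 2))
          (hle (hdelF 0 2)))) (hle (hdelF 0 1))
      rw [IntermediateField.adjoin_le_iff]
      rintro a (rfl | rfl | rfl | ha)
      · exact hle huF
      · exact hle hρF
      · exact htm
      · rw [Set.mem_singleton_iff.1 ha]; exact hθm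
    · refine sup_adjoin_le ?_ (IntermediateField.subset_adjoin _ _ (by simp))
      rw [hF]
      apply IntermediateField.adjoin.mono
      intro a ha
      rcases ha with rfl | ha
      · simp
      · rw [Set.mem_singleton_iff.1 ha]; simp
  refine twin_core F m (D.bb u 2) (D.bb u 1) (D.bb u 0) (D.ee u ρ 2) (D.ee u ρ 1) (D.ee u ρ 0)
    (hv (d := 2) D.a u ρ 1) (hv (d := 3) D.c u ρ 1) t θ l (hbbF 2) (hbbF 1) (hbbF 0) (heeF 2)
    (heeF 1) (heeF 0) haF hcF hA hc hJ' hdel ?_ hsq hgen ?_ ?_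
  · intro h3
    apply hff
    unfold Data.ff
    linear_combination h3
  · rw [← hw]
    have h3 : F ⊔ IntermediateField.adjoin ℂ {l, w} = G ⊔ IntermediateField.adjoin ℂ {w} := by
      apply le_antisymm
      · have hle : G ≤ G ⊔ IntermediateField.adjoin ℂ {w} := le_sup_left
        refine sup_le (hFG.trans hle) ?_
        rw [IntermediateField.adjoin_le_iff]
        intro a ha
        exact pair_mem (hle hlG) (mem_sup_adjoin G w) ha
      · have hle : F ≤ F ⊔ IntermediateField.adjoin ℂ {l, w} := le_sup_left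
        have hle2 : IntermediateField.adjoin ℂ {l, w} ≤ F ⊔ IntermediateField.adjoin ℂ {l, w} :=
          le_sup_right
        refine sup_adjoin_le ?_ (hle2 (IntermediateField.subset_adjoin _ _ (by simp)))
        rw [hG, IntermediateField.adjoin_le_iff]
        intro a ha
        exact pair_mem (hle huF) (hle2 (IntermediateField.subset_adjoin _ _ (by simp))) ha
    rw [h3]
    exact conic_rational hconic
  · rw [← hFT]
    exact conic_rational hconic2

end

/-- **Theorem H**, version with an algebraically closed field. -/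
theorem mainV (D : Data) {K : Type} [Field K] [Algebra ℂ K] (u ρ t θ : K)
    (hind : AlgebraicIndependent ℂ ![u, ρ])
    (hgen : IntermediateField.adjoin ℂ {u, ρ, t, θ} = ⊤)
    (hA : hv (d := 2) D.a u ρ 1 + θ ^ 2 * (D.bb u 0 * t ^ 2 + D.bb u 1 * t + D.bb u 2) = 0)
    (hc : hv (d := 3) D.c u ρ 1 + θ ^ 2 * (D.ee u ρ 0 * t ^ 2 + D.ee u ρ 1 * t + D.ee u ρ 2) = 0)
    (hdisc : ∀ {N : Type} [Field N] [Algebra ℂ N] (u ρ : N), D.DiscId N u ρ)
    (htwin : ∀ {N : Type} [Field N] [Algebra ℂ N] (u ρ : N), AlgebraicIndependent ℂ ![u, ρ] →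
      ∀ x : Fin 3 → N, D.TwinV u x) (hg : D.GenW) : PointsEquivalent K := by
  let N := AlgebraicClosure K
  let m : K →ₐ[ℂ] N := IsScalarTower.toAlgHom ℂ K N
  have hinj : Function.Injective m := m.toRingHom.injective
  have hind' : AlgebraicIndependent ℂ ![m u, m ρ] := by
    have h := hind.map' (f := m) hinj
    have h2 : (m ∘ ![u, ρ]) = ![m u, m ρ] := by
      funext i
      fin_cases i <;> rfl
    rwa [h2] at h
  have hm : m.fieldRange = IntermediateField.adjoin ℂ {m u, m ρ, m t, m θ} := by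
    rw [AlgHom.fieldRange_eq_map, ← hgen, IntermediateField.adjoin_map]
    congr 1
    simp only [Set.image_insert_eq, Set.image_singleton]
  refine mainNV D m (m u) (m ρ) (m t) (m θ) hind' hm ?_ ?_ (hdisc _ _)
    (htwin _ _ hind') hg
  · have h := congrArg m hA
    simpa only [map_add, map_mul, map_pow, map_hv, D.map_bb, map_one, map_zero] using h
  · have h := congrArg m hc
    simpa only [map_add, map_mul, map_pow, map_hv, D.map_ee, map_one, map_zero] using h

end Vale.Agent.P297.H424
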