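import Mathlib.FieldTheory.IntermediateField.Basic
import Mathlib.LinearAlgebra.Matrix.Adjugate
import Mathlib.Data.Complex.Basic
import Mathlib.Tactic.LinearCombination

/-!
Nets of binary quadratic forms with coefficients that are linear in a parameter.
-/

namespace Vale.Agent.P297.H424

/-- A net of binary quadratic forms `q`, `r`, `s` in `t` whose coefficients are linear in `u`: the
columns of the matrix `M0 + u M1` are the coefficients (of `t²`, `t`, `1`) of `q`, `r`, `s`. -/
structure Net where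
  /-- the constant terms -/
  M0 : Matrix (Fin 3) (Fin 3) ℂ
  /-- the coefficients of `u` -/
  M1 : Matrix (Fin 3) (Fin 3) ℂ

namespace Net

variable (D : Net) {R S : Type*} [CommRing R] [Algebra ℂ R] [CommRing S] [Algebra ℂ S]

/-- the matrix `M0 + u M1` -/
def mat (u : R) : Matrix (Fin 3) (Fin 3) R := fun i j =>
  algebraMap ℂ R (D.M0 i j) + u * algebraMap ℂ R (D.M1 i j)

/-- the determinant -/
def det (u : R) : R := (D.mat u).det

/-- the coefficients of a square -/
def sq (l : R) : Fin 3 → R := ![1, -2 * l, l ^ 2]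

/-- `X(u,l)`, with `X₀ q + X₁ r + X₂ s = det(u) (t - l)²` -/
def xv (u l : R) : Fin 3 → R := (D.mat u).adjugate.mulVec (sq l)

/-- the value at `x` of the constant part -/
def al (x : Fin 3 → R) : Fin 3 → R := (D.M0.map (algebraMap ℂ R)).mulVec x

/-- the value at `x` of the linear part -/
def be (x : Fin 3 → R) : Fin 3 → R := (D.M1.map (algebraMap ℂ R)).mulVec x

/-- the coefficient of `T²` in the discriminant of `(M0 + T M1) x` -/
def a2 (x : Fin 3 → R) : R := D.be x 1 ^ 2 - 4 * D.be x 0 * D.be x 2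

/-- the coefficient of `T` in the discriminant of `(M0 + T M1) x` -/
def a1 (x : Fin 3 → R) : R :=
  2 * D.al x 1 * D.be x 1 - 4 * (D.al x 0 * D.be x 2 + D.al x 2 * D.be x 0)

/-- the constant coefficient in the discriminant of `(M0 + T M1) x` -/
def a0 (x : Fin 3 → R) : R := D.al x 1 ^ 2 - 4 * D.al x 0 * D.al x 2

section nat

variable (f : R →ₐ[ℂ] S)

theorem map_mat (u : R) : f.toRingHom.mapMatrix (D.mat u) = D.mat (f u) := by
  ext i j
  simp [mat]

theorem map_det (u : R) : f (D.det u) = D.det (f u) := by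
  unfold det
  rw [← map_mat]
  exact RingHom.map_det f.toRingHom (D.mat u)

theorem map_adj (u : R) (i j : Fin 3) : f ((D.mat u).adjugate i j) = (D.mat (f u)).adjugate i j := by
  rw [← map_mat, ← RingHom.map_adjugate]
  rfl

theorem map_sq (l : R) (i : Fin 3) : f (sq l i) = sq (f l) i := by
  fin_cases i <;> simp [sq, map_ofNat]

theorem map_xv (u l : R) (i : Fin 3) : f (D.xv u l i) = D.xv (f u) (f l) i := by
  simp only [xv, Matrix.mulVec, dotProduct, map_sum, map_mul, map_adj, map_sq]

theorem map_al (x : Fin 3 → R) (i : Fin 3) : f (D.al x i) = D.al (fun j => f (x j)) i := by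
  simp [al, Matrix.mulVec, dotProduct]

theorem map_be (x : Fin 3 → R) (i : Fin 3) : f (D.be x i) = D.be (fun j => f (x j)) i := by
  simp [be, Matrix.mulVec, dotProduct]

theorem map_a2 (x : Fin 3 → R) : f (D.a2 x) = D.a2 (fun j => f (x j)) := by
  simp only [a2, map_sub, map_mul, map_pow, map_be, map_ofNat]

theorem map_a1 (x : Fin 3 → R) : f (D.a1 x) = D.a1 (fun j => f (x j)) := by
  simp only [a1, map_sub, map_add, map_mul, map_be, map_al, map_ofNat]

theorem map_a0 (x : Fin 3 → R) : f (D.a0 x) = D.a0 (fun j => f (x j)) := by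
  simp only [a0, map_sub, map_mul, map_pow, map_al, map_ofNat]

end nat

theorem mat_mulVec (u : R) (x : Fin 3 → R) (i : Fin 3) :
    (D.mat u).mulVec x i = D.al x i + u * D.be x i := by
  simp only [mat, al, be, Matrix.mulVec, dotProduct, Matrix.map_apply, Fin.sum_univ_three]
  ring

theorem mat_xv (u l : R) (i : Fin 3) :
    D.al (D.xv u l) i + u * D.be (D.xv u l) i = D.det u * sq l i := by
  rw [← mat_mulVec, xv, Matrix.mulVec_mulVec, Matrix.mul_adjugate, Matrix.smul_mulVec,
    Matrix.one_mulVec]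
  rfl

theorem al_smul (k : R) (x : Fin 3 → R) (i : Fin 3) : D.al (fun j => k * x j) i = k * D.al x i := by
  simp only [al, Matrix.mulVec, dotProduct, Matrix.map_apply, Fin.sum_univ_three]
  ring

theorem be_smul (k : R) (x : Fin 3 → R) (i : Fin 3) : D.be (fun j => k * x j) i = k * D.be x i := by
  simp only [be, Matrix.mulVec, dotProduct, Matrix.map_apply, Fin.sum_univ_three]
  ring

theorem a2_smul (k : R) (x : Fin 3 → R) : D.a2 (fun j => k * x j) = k ^ 2 * D.a2 x := by
  simp only [a2, be_smul]
  ring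

theorem a1_smul (k : R) (x : Fin 3 → R) : D.a1 (fun j => k * x j) = k ^ 2 * D.a1 x := by
  simp only [a1, be_smul, al_smul]
  ring

/-- the discriminant at `T` -/
theorem disc_eq (T : R) (x : Fin 3 → R) :
    (D.al x 1 + T * D.be x 1) ^ 2 - 4 * (D.al x 0 + T * D.be x 0) * (D.al x 2 + T * D.be x 2) =
      D.a2 x * T ^ 2 + D.a1 x * T + D.a0 x := by
  unfold a2 a1 a0
  ring

theorem root_u (u l : R) : D.a2 (D.xv u l) * u ^ 2 + D.a1 (D.xv u l) * u + D.a0 (D.xv u l) = 0 := by
  rw [← disc_eq, mat_xv, mat_xv, mat_xv]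
  simp only [sq, Matrix.cons_val_zero, Matrix.cons_val_one, Matrix.cons_val]
  ring

end Net

end Vale.Agent.P297.H424
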