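import Vale.Agent.P297.H424.TSide
import Vale.Agent.P297.H424.Sq

/-!
Polynomials attached to a net of binary quadratic forms.
-/

open Polynomial

namespace Vale.Agent.P297.H424

open Vale.Agent.P297 Vale.Agent.P297.H839

/-- The polynomial with coefficients `k i j` (of `uⁱ yʲ`), homogenized in `y` by `z`. -/
def hv {n d : ℕ} (k : Fin n → Fin (d + 1) → ℂ) {R : Type*} [CommRing R] [Algebra ℂ R]
    (u y z : R) : R :=
  ∑ i, ∑ j, algebraMap ℂ R (k i j) * u ^ (i : ℕ) * y ^ (j : ℕ) * z ^ (d - (j : ℕ))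

/-- The polynomial with coefficients `k i`. -/
def pv {n : ℕ} (k : Fin n → ℂ) {R : Type*} [CommRing R] [Algebra ℂ R] (u : R) : R :=
  ∑ i, algebraMap ℂ R (k i) * u ^ (i : ℕ)

/-- The bilinear form in `x` and the powers of `u` with coefficients `k i j` (of `uⁱ xⱼ`). -/
def lv {n : ℕ} (k : Fin n → Fin 3 → ℂ) {R : Type*} [CommRing R] [Algebra ℂ R]
    (u : R) (x : Fin 3 → R) : R :=
  ∑ i, ∑ j, algebraMap ℂ R (k i j) * u ^ (i : ℕ) * x j

section nat

variable {R S : Type*} [CommRing R] [Algebra ℂ R] [CommRing S] [Algebra ℂ S] (f : R →ₐ[ℂ] S)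

theorem map_hv {n d : ℕ} (k : Fin n → Fin (d + 1) → ℂ) (u y z : R) :
    f (hv k u y z) = hv k (f u) (f y) (f z) := by
  simp only [hv, map_sum, map_mul, map_pow, AlgHom.commutes]

theorem map_pv {n : ℕ} (k : Fin n → ℂ) (u : R) : f (pv k u) = pv k (f u) := by
  simp only [pv, map_sum, map_mul, map_pow, AlgHom.commutes]

theorem map_lv {n : ℕ} (k : Fin n → Fin 3 → ℂ) (u : R) (x : Fin 3 → R) :
    f (lv k u x) = lv k (f u) (fun i => f (x i)) := by
  simp only [lv, map_sum, map_mul, map_pow, AlgHom.commutes]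

theorem map_lin (A : Fin 3 → ℂ) (x : Fin 3 → R) : f (lin A x) = lin A (fun i => f (x i)) := by
  simp only [lin, map_sum, map_mul, AlgHom.commutes]

theorem hv_smul {n d : ℕ} (k : Fin n → Fin (d + 1) → ℂ) (u y z c : R) :
    hv k u (c * y) (c * z) = c ^ d * hv k u y z := by
  simp only [hv, Finset.mul_sum]
  refine Finset.sum_congr rfl fun i _ => Finset.sum_congr rfl fun j _ => ?_
  have h : c ^ d = c ^ (j : ℕ) * c ^ (d - (j : ℕ)) := by
    rw [← pow_add]
    congr 1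
    have := j.2
    omega
  rw [mul_pow, mul_pow, h]
  ring

end nat

section mem

variable {N : Type} [Field N] [Algebra ℂ N]

theorem hv_mem {n d : ℕ} (k : Fin n → Fin (d + 1) → ℂ) (F : IntermediateField ℂ N) {u y z : N}
    (hu : u ∈ F) (hy : y ∈ F) (hz : z ∈ F) : hv k u y z ∈ F := by
  unfold hv
  exact sum_mem fun i _ => sum_mem fun j _ => mul_mem (mul_mem (mul_mem (F.algebraMap_mem _)
    (pow_mem hu _)) (pow_mem hy _)) (pow_mem hz _)

theorem pv_mem {n : ℕ} (k : Fin n → ℂ) (F : IntermediateField ℂ N) {u : N}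
    (hu : u ∈ F) : pv k u ∈ F := by
  unfold pv
  exact sum_mem fun i _ => mul_mem (F.algebraMap_mem _) (pow_mem hu _)

end mem

namespace Net

variable (D : Net)

section

variable {R S : Type*} [CommRing R] [Algebra ℂ R] [CommRing S] [Algebra ℂ S] (f : R →ₐ[ℂ] S)

/-- the coefficients (of `t²`, `t`, `1`) of `B = q + u r - u² s` -/
def bb (u : R) (i : Fin 3) : R := D.mat u i 0 + u * D.mat u i 1 - u ^ 2 * D.mat u i 2

/-- the coefficients (of `t²`, `t`, `1`) of `E = ρ q - u s` -/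
def ee (u ρ : R) (i : Fin 3) : R := ρ * D.mat u i 0 - u * D.mat u i 2

/-- the minors of `(B, E)` -/
def del (u ρ : R) (i j : Fin 3) : R := D.bb u i * D.ee u ρ j - D.bb u j * D.ee u ρ i

/-- the resultant of `B` and `E` -/
def gam (u ρ : R) : R := D.del u ρ 0 2 ^ 2 - D.del u ρ 1 2 * D.del u ρ 0 1

theorem map_mat' (u : R) (i j : Fin 3) : f (D.mat u i j) = D.mat (f u) i j := by
  rw [← D.map_mat f u]
  rfl

theorem map_bb (u : R) (i : Fin 3) : f (D.bb u i) = D.bb (f u) i := by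
  simp only [bb, map_add, map_sub, map_mul, map_pow, map_mat']

theorem map_ee (u ρ : R) (i : Fin 3) : f (D.ee u ρ i) = D.ee (f u) (f ρ) i := by
  simp only [ee, map_sub, map_mul, map_mat']

theorem map_del (u ρ : R) (i j : Fin 3) : f (D.del u ρ i j) = D.del (f u) (f ρ) i j := by
  simp only [del, map_sub, map_mul, map_bb, map_ee]

theorem map_gam (u ρ : R) : f (D.gam u ρ) = D.gam (f u) (f ρ) := by
  simp only [gam, map_sub, map_mul, map_pow, map_del]

/-- the discriminant of `B` -/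
def discB (u : R) : R := D.bb u 1 ^ 2 - 4 * D.bb u 0 * D.bb u 2

theorem map_discB (u : R) : f (D.discB u) = D.discB (f u) := by
  simp only [discB, map_sub, map_mul, map_pow, map_bb, map_ofNat]

/-- `gam` is a quadratic polynomial in `ρ` -/
def g2 (u : R) : R :=
  (D.bb u 0 * D.mat u 2 0 - D.bb u 2 * D.mat u 0 0) ^ 2 -
    (D.bb u 1 * D.mat u 2 0 - D.bb u 2 * D.mat u 1 0) *
      (D.bb u 0 * D.mat u 1 0 - D.bb u 1 * D.mat u 0 0)

/-- the constant coefficient of `gam` -/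
def g0 (u : R) : R :=
  u ^ 2 * ((D.bb u 0 * D.mat u 2 2 - D.bb u 2 * D.mat u 0 2) ^ 2 -
    (D.bb u 1 * D.mat u 2 2 - D.bb u 2 * D.mat u 1 2) *
      (D.bb u 0 * D.mat u 1 2 - D.bb u 1 * D.mat u 0 2))

/-- the linear coefficient of `gam` -/
def g1 (u : R) : R :=
  -u * (2 * (D.bb u 0 * D.mat u 2 0 - D.bb u 2 * D.mat u 0 0) *
      (D.bb u 0 * D.mat u 2 2 - D.bb u 2 * D.mat u 0 2) -
    (D.bb u 1 * D.mat u 2 0 - D.bb u 2 * D.mat u 1 0) *
      (D.bb u 0 * D.mat u 1 2 - D.bb u 1 * D.mat u 0 2) -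
    (D.bb u 1 * D.mat u 2 2 - D.bb u 2 * D.mat u 1 2) *
      (D.bb u 0 * D.mat u 1 0 - D.bb u 1 * D.mat u 0 0))

theorem gam_eq (u ρ : R) : D.gam u ρ = D.g2 u * ρ ^ 2 + D.g1 u * ρ + D.g0 u := by
  unfold gam g2 g1 g0 del ee
  ring

theorem det_eq (u : R) : D.det u =
    D.mat u 0 0 * D.mat u 1 1 * D.mat u 2 2 - D.mat u 0 0 * D.mat u 1 2 * D.mat u 2 1 -
    D.mat u 0 1 * D.mat u 1 0 * D.mat u 2 2 + D.mat u 0 1 * D.mat u 1 2 * D.mat u 2 0 +
    D.mat u 0 2 * D.mat u 1 0 * D.mat u 2 1 - D.mat u 0 2 * D.mat u 1 1 * D.mat u 2 0 := by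
  unfold det
  rw [Matrix.det_fin_three]

theorem disc_gam (u : R) :
    D.g1 u ^ 2 - 4 * D.g2 u * D.g0 u = u ^ 4 * D.det u ^ 2 * D.discB u := by
  rw [det_eq]
  unfold g2 g1 g0 discB bb
  ring

end

end Net

end Vale.Agent.P297.H424
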