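import Vale.Agent.P297.H424.Net
import Vale.Agent.P297.H424.Core

/-!
The twin is of conic type.
-/

set_option linter.unusedSectionVars false

open CategoryTheory AlgebraicGeometry IntermediateField Polynomial

namespace Vale.Agent.P297.H424

open Vale.Agent.P297 Vale.Agent.P297.H839 Vale.Agent.P297.H109 Vale.Agent.P297.H600

/-- a linear form with complex coefficients -/
def lin {R : Type*} [CommRing R] [Algebra ℂ R] (A : Fin 3 → ℂ) (x : Fin 3 → R) : R :=
  ∑ i, algebraMap ℂ R (A i) * x i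

theorem lin_smul {R : Type*} [CommRing R] [Algebra ℂ R] (A : Fin 3 → ℂ) (k : R) (x : Fin 3 → R) :
    lin A (fun j => k * x j) = k * lin A x := by
  simp only [lin, Fin.sum_univ_three]
  ring

section

variable {N : Type} [Field N] [Algebra ℂ N] (D : Net)

/-- membership from naturality -/
theorem xv_mem (F : IntermediateField ℂ N) {u l : N} (hu : u ∈ F) (hl : l ∈ F) (i : Fin 3) :
    D.xv u l i ∈ F := by
  have h := D.map_xv F.val ⟨u, hu⟩ ⟨l, hl⟩ i
  have h2 : D.xv u l i = F.val (D.xv ⟨u, hu⟩ ⟨l, hl⟩ i) := h.symm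
  rw [h2]
  exact (D.xv (⟨u, hu⟩ : F) ⟨l, hl⟩ i).2

theorem adj_mem (F : IntermediateField ℂ N) {u : N} (hu : u ∈ F) (i j : Fin 3) :
    (D.mat u).adjugate i j ∈ F := by
  have h : (D.mat u).adjugate i j = F.val ((D.mat (⟨u, hu⟩ : F)).adjugate i j) :=
    (D.map_adj F.val ⟨u, hu⟩ i j).symm
  rw [h]
  exact ((D.mat (⟨u, hu⟩ : F)).adjugate i j).2

theorem det_mem (F : IntermediateField ℂ N) {u : N} (hu : u ∈ F) : D.det u ∈ F := by
  have h : D.det u = F.val (D.det (⟨u, hu⟩ : F)) := (D.map_det F.val ⟨u, hu⟩).symm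
  rw [h]
  exact (D.det (⟨u, hu⟩ : F)).2

theorem al_mem (F : IntermediateField ℂ N) {x : Fin 3 → N} (hx : ∀ i, x i ∈ F) (i : Fin 3) :
    D.al x i ∈ F := by
  have h : D.al x i = F.val (D.al (fun i => (⟨x i, hx i⟩ : F)) i) :=
    (D.map_al F.val (fun i => ⟨x i, hx i⟩) i).symm
  rw [h]
  exact (D.al (fun i => (⟨x i, hx i⟩ : F)) i).2

theorem be_mem (F : IntermediateField ℂ N) {x : Fin 3 → N} (hx : ∀ i, x i ∈ F) (i : Fin 3) :
    D.be x i ∈ F := by
  have h : D.be x i = F.val (D.be (fun i => (⟨x i, hx i⟩ : F)) i) :=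
    (D.map_be F.val (fun i => ⟨x i, hx i⟩) i).symm
  rw [h]
  exact (D.be (fun i => (⟨x i, hx i⟩ : F)) i).2

theorem a2_mem (F : IntermediateField ℂ N) {x : Fin 3 → N} (hx : ∀ i, x i ∈ F) : D.a2 x ∈ F := by
  have h : D.a2 x = F.val (D.a2 (fun i => (⟨x i, hx i⟩ : F))) :=
    (D.map_a2 F.val (fun i => ⟨x i, hx i⟩)).symm
  rw [h]
  exact (D.a2 (fun i => (⟨x i, hx i⟩ : F))).2

theorem a1_mem (F : IntermediateField ℂ N) {x : Fin 3 → N} (hx : ∀ i, x i ∈ F) : D.a1 x ∈ F := by
  have h : D.a1 x = F.val (D.a1 (fun i => (⟨x i, hx i⟩ : F))) :=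
    (D.map_a1 F.val (fun i => ⟨x i, hx i⟩)).symm
  rw [h]
  exact (D.a1 (fun i => (⟨x i, hx i⟩ : F))).2

theorem algebraMap_mem' (F : IntermediateField ℂ N) (a : ℂ) : algebraMap ℂ N a ∈ F :=
  F.algebraMap_mem a

/-- The second structure of conic bundle: the pair `(v, p)`. -/
theorem geiser {u l : N} (hδ : D.det u ≠ 0) (ha : D.a2 (D.xv u l) ≠ 0) (v m p : N)
    (hv : v = -(D.a1 (D.xv u l)) / D.a2 (D.xv u l) - u)
    (hm : m = D.al (D.xv u l) 0 + v * D.be (D.xv u l) 0) (hm0 : m ≠ 0)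
    (hp : p = -(D.al (D.xv u l) 1 + v * D.be (D.xv u l) 1) / (2 * m))
    (hδv : D.det v ≠ 0) :
    (∀ i, D.xv u l i = m / D.det v * D.xv v p i) ∧
    IntermediateField.adjoin ℂ {u, l} = IntermediateField.adjoin ℂ {v, p} ∧
    D.a2 (D.xv u l) * D.det u * m =
      (D.al (D.xv u l) 1 * D.be (D.xv u l) 0 - D.al (D.xv u l) 0 * D.be (D.xv u l) 1) ^ 2 := by
  have : CharZero N := charZero_of_injective_algebraMap (algebraMap ℂ N).injective
  obtain ⟨x, hx⟩ : ∃ x, x = D.xv u l := ⟨_, rfl⟩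
  have hroot := D.root_u u l
  have h0 := D.mat_xv u l 0
  have h1 := D.mat_xv u l 1
  have h2 := D.mat_xv u l 2
  rw [← hx] at ha hv hm hp hroot h0 h1 h2 ⊢
  simp only [Net.sq, Matrix.cons_val_zero, Matrix.cons_val_one, Matrix.cons_val, mul_one] at h0 h1 h2
  have hv1 : D.a2 x * v = -(D.a1 x) - D.a2 x * u := by
    rw [hv]
    field_simp
  have hrootv : D.a2 x * v ^ 2 + D.a1 x * v + D.a0 x = 0 := by
    have h3 : D.a2 x * (D.a2 x * v ^ 2 + D.a1 x * v + D.a0 x) = 0 := by
      have h4 : D.a2 x * (D.a2 x * v ^ 2 + D.a1 x * v + D.a0 x) =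
        (D.a2 x * v) ^ 2 + D.a1 x * (D.a2 x * v) + D.a2 x * D.a0 x := by ring
      rw [h4, hv1]
      linear_combination D.a2 x * hroot
    exact (mul_eq_zero.1 h3).resolve_left ha
  have hdiscv : (D.al x 1 + v * D.be x 1) ^ 2 =
      4 * (D.al x 0 + v * D.be x 0) * (D.al x 2 + v * D.be x 2) := by
    have := D.disc_eq v x
    rw [hrootv] at this
    linear_combination this
  have hk0 : D.al x 0 + v * D.be x 0 = m := hm.symm
  have hk1 : D.al x 1 + v * D.be x 1 = -2 * p * m := by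
    rw [hp]
    field_simp
  have hk2 : D.al x 2 + v * D.be x 2 = p ^ 2 * m := by
    rw [hk0, hk1] at hdiscv
    have h3 : (4 * m) * (D.al x 2 + v * D.be x 2 - p ^ 2 * m) = 0 := by
      linear_combination (-1 : N) * hdiscv
    have h4 : (4 * m : N) ≠ 0 := mul_ne_zero (by norm_num) hm0
    exact sub_eq_zero.1 ((mul_eq_zero.1 h3).resolve_left h4)
  have hMx : (D.mat v).mulVec x = m • Net.sq p := by
    ext i
    rw [D.mat_mulVec]
    fin_cases i
    · simpa [Net.sq] using hk0
    · simp only [Net.sq, Pi.smul_apply, smul_eq_mul]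
      change D.al x 1 + v * D.be x 1 = m * (-2 * p)
      rw [hk1]; ring
    · simp only [Net.sq, Pi.smul_apply, smul_eq_mul]
      change D.al x 2 + v * D.be x 2 = m * p ^ 2
      rw [hk2]; ring
  have hX : ∀ i, x i = m / D.det v * D.xv v p i := by
    have h3 : D.det v • x = m • D.xv v p := by
      have h4 : (D.mat v).adjugate.mulVec ((D.mat v).mulVec x) = D.det v • x := by
        rw [Matrix.mulVec_mulVec, Matrix.adjugate_mul, Matrix.smul_mulVec, Matrix.one_mulVec]
        rfl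
      rw [← h4, hMx, Matrix.mulVec_smul]
      rfl
    intro i
    have h5 := congrFun h3 i
    simp only [Pi.smul_apply, smul_eq_mul] at h5
    field_simp
    linear_combination h5
  refine ⟨hX, ?_, ?_⟩
  · have hxfun : x = fun j => m / D.det v * D.xv v p j := funext hX
    have hk : m / D.det v ≠ 0 := div_ne_zero hm0 hδv
    apply le_antisymm
    · set G := IntermediateField.adjoin ℂ {v, p} with hG
      have hvG : v ∈ G := IntermediateField.subset_adjoin _ _ (by simp)
      have hpG : p ∈ G := IntermediateField.subset_adjoin _ _ (by simp)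
      have hxG : ∀ i, D.xv v p i ∈ G := xv_mem D G hvG hpG
      have ha' : D.a2 (D.xv v p) ≠ 0 := by
        intro h
        apply ha
        rw [hxfun, D.a2_smul, h, mul_zero]
      have hu : u = -(D.a1 (D.xv v p)) / D.a2 (D.xv v p) - v := by
        have h3 : u = -(D.a1 x) / D.a2 x - v := by
          have h4 : D.a2 x * u = -(D.a1 x) - D.a2 x * v := by rw [hv1]; ring
          field_simp
          linear_combination h4
        rw [h3, hxfun, D.a2_smul, D.a1_smul]
        field_simp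
      have huG : u ∈ G := by
        rw [hu]
        exact sub_mem (div_mem (neg_mem (a1_mem D G hxG)) (a2_mem D G hxG)) hvG
      rw [IntermediateField.adjoin_le_iff]
      rintro a (rfl | ha3)
      · exact huG
      · rw [Set.mem_singleton_iff.1 ha3]
        have hl : l = -(D.al (D.xv v p) 1 + u * D.be (D.xv v p) 1) /
            (2 * (D.al (D.xv v p) 0 + u * D.be (D.xv v p) 0)) := by
          have e0 : m / D.det v * (D.al (D.xv v p) 0 + u * D.be (D.xv v p) 0) = D.det u := by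
            have := h0
            rw [hxfun, D.al_smul, D.be_smul] at this
            rw [← this]; ring
          have e1 : m / D.det v * (D.al (D.xv v p) 1 + u * D.be (D.xv v p) 1) =
              D.det u * (-2 * l) := by
            have := h1
            rw [hxfun, D.al_smul, D.be_smul] at this
            rw [← this]; ring
          have hne : D.al (D.xv v p) 0 + u * D.be (D.xv v p) 0 ≠ 0 := by
            intro h
            rw [h, mul_zero] at e0
            exact hδ e0.symm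
          rw [eq_div_iff (mul_ne_zero two_ne_zero hne)]
          apply mul_left_cancel₀ hk
          linear_combination (2 * l) * e0 + e1
        rw [hl]
        exact div_mem (neg_mem (add_mem (al_mem D G hxG 1) (mul_mem huG (be_mem D G hxG 1))))
          (mul_mem (ofNat_mem G 2) (add_mem (al_mem D G hxG 0) (mul_mem huG (be_mem D G hxG 0))))
    · set G := IntermediateField.adjoin ℂ {u, l} with hG
      have huG : u ∈ G := IntermediateField.subset_adjoin _ _ (by simp)
      have hlG : l ∈ G := IntermediateField.subset_adjoin _ _ (by simp)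
      have hxG : ∀ i, x i ∈ G := by rw [hx]; exact xv_mem D G huG hlG
      have hvG : v ∈ G := by
        rw [hv]
        exact sub_mem (div_mem (neg_mem (a1_mem D G hxG)) (a2_mem D G hxG)) huG
      have hmG : m ∈ G := by
        rw [hm]
        exact add_mem (al_mem D G hxG 0) (mul_mem hvG (be_mem D G hxG 0))
      rw [IntermediateField.adjoin_le_iff]
      rintro a (rfl | ha3)
      · exact hvG
      · rw [Set.mem_singleton_iff.1 ha3, hp]
        exact div_mem (neg_mem (add_mem (al_mem D G hxG 1) (mul_mem hvG (be_mem D G hxG 1))))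
          (mul_mem (ofNat_mem G 2) hmG)
  · -- the square
    have e0 : D.det u = D.al x 0 + u * D.be x 0 := h0.symm
    rw [e0, hm]
    have e3 : D.a2 x * (D.al x 0 + u * D.be x 0) * (D.al x 0 + v * D.be x 0) =
        D.a2 x * D.al x 0 ^ 2 + (D.a2 x * u + D.a2 x * v) * (D.al x 0 * D.be x 0) +
        (D.a2 x * v) * u * D.be x 0 ^ 2 := by ring
    rw [e3, hv1]
    have e4 : (-D.a1 x - D.a2 x * u) * u = D.a0 x := by
      linear_combination (-1 : N) * hroot
    rw [e4]
    unfold Net.a0 Net.a1 Net.a2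
    ring

/-- the coefficients of the quadratic polynomial `(A0 + v A1)(X(v,p))` in `p` -/
def wv {R : Type*} [CommRing R] [Algebra ℂ R] (D : Net) (A0 A1 : Fin 3 → ℂ) (v : R) (k : Fin 3) :
    R :=
  ∑ j, (algebraMap ℂ R (A0 j) + v * algebraMap ℂ R (A1 j)) * (D.mat v).adjugate j k

theorem map_wv {R S : Type*} [CommRing R] [Algebra ℂ R] [CommRing S] [Algebra ℂ S]
    (D : Net) (A0 A1 : Fin 3 → ℂ) (f : R →ₐ[ℂ] S) (v : R) (k : Fin 3) :
    f (wv D A0 A1 v k) = wv D A0 A1 (f v) k := by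
  simp only [wv, map_sum, map_mul, map_add, D.map_adj, AlgHom.commutes]

theorem lin_xv (A0 A1 : Fin 3 → ℂ) (v p : N) :
    lin A0 (D.xv v p) + v * lin A1 (D.xv v p) =
      wv D A0 A1 v 0 - 2 * wv D A0 A1 v 1 * p + wv D A0 A1 v 2 * p ^ 2 := by
  simp only [lin, wv, Net.xv, Net.sq, Matrix.mulVec, dotProduct, Fin.sum_univ_three,
    Matrix.cons_val_zero, Matrix.cons_val_one, Matrix.cons_val]
  ring

theorem wv_mem (F : IntermediateField ℂ N) (A0 A1 : Fin 3 → ℂ) {v : N} (hv : v ∈ F) (k : Fin 3) :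
    wv D A0 A1 v k ∈ F := by
  have h : wv D A0 A1 v k = F.val (wv D A0 A1 (⟨v, hv⟩ : F) k) :=
    (map_wv D A0 A1 F.val ⟨v, hv⟩ k).symm
  rw [h]
  exact (wv D A0 A1 (⟨v, hv⟩ : F) k).2

/-- The twin is of conic type. -/
theorem tside (A0 A1 : Fin 3 → ℂ) {u l : N} (hul : AlgebraicIndependent ℂ ![u, l])
    (hδ : D.det u ≠ 0) (ha : D.a2 (D.xv u l) ≠ 0) (v m : N)
    (hv : v = -(D.a1 (D.xv u l)) / D.a2 (D.xv u l) - u)
    (hm : m = D.al (D.xv u l) 0 + v * D.be (D.xv u l) 0) (hm0 : m ≠ 0)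
    (hδv : D.det v ≠ 0) (hd : wv D A0 A1 v 1 ^ 2 - wv D A0 A1 v 0 * wv D A0 A1 v 2 ≠ 0)
    (w s : N) (hs : s ∈ IntermediateField.adjoin ℂ {u, l}) (hs0 : s ≠ 0)
    (hw : (s * w) ^ 2 = -(D.det u * (D.a2 (D.xv u l) * lin A0 (D.xv u l) -
      (D.a1 (D.xv u l) + u * D.a2 (D.xv u l)) * lin A1 (D.xv u l)))) :
    IsConicType (IntermediateField.adjoin ℂ {u, l}) w := by
  have : CharZero N := charZero_of_injective_algebraMap (algebraMap ℂ N).injective
  obtain ⟨p, hp⟩ : ∃ p, p = -(D.al (D.xv u l) 1 + v * D.be (D.xv u l) 1) / (2 * m) := ⟨_, rfl⟩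
  obtain ⟨hX, hF, hsq⟩ := geiser D hδ ha v m p hv hm hm0 hp hδv
  have hvp : AlgebraicIndependent ℂ ![v, p] := by
    apply indep_of_algebraic hul
    have h : IntermediateField.adjoin ℂ (Set.range ![v, p]) =
        IntermediateField.adjoin ℂ (Set.range ![u, l]) := by
      rw [range_pair, range_pair, hF]
    intro i
    rw [h]
    exact isAlgebraic_mem _ _ (IntermediateField.subset_adjoin _ _ ⟨i, rfl⟩)
  obtain ⟨P, hP⟩ : ∃ P, P = D.al (D.xv u l) 1 * D.be (D.xv u l) 0 -
      D.al (D.xv u l) 0 * D.be (D.xv u l) 1 := ⟨_, rfl⟩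
  rw [← hP] at hsq
  have hP0 : P ≠ 0 := by
    rintro rfl
    have h3 : D.a2 (D.xv u l) * D.det u * m ≠ 0 := mul_ne_zero (mul_ne_zero ha hδ) hm0
    exact h3 (by rw [hsq]; ring)
  set G := IntermediateField.adjoin ℂ {u, l} with hG
  have huG : u ∈ G := IntermediateField.subset_adjoin _ _ (by simp)
  have hlG : l ∈ G := IntermediateField.subset_adjoin _ _ (by simp)
  have hvG : v ∈ G := by
    rw [hF]; exact IntermediateField.subset_adjoin _ _ (by simp)
  have hxG : ∀ i, D.xv u l i ∈ G := xv_mem D G huG hlG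
  have hPG : P ∈ G := by
    rw [hP]
    exact sub_mem (mul_mem (al_mem D G hxG 1) (be_mem D G hxG 0))
      (mul_mem (al_mem D G hxG 0) (be_mem D G hxG 1))
  have hvv : v ∈ ℂ⟮v⟯ := IntermediateField.mem_adjoin_simple_self ℂ v
  refine ⟨v, p, -(D.det v * wv D A0 A1 v 2), 2 * (D.det v * wv D A0 A1 v 1),
    -(D.det v * wv D A0 A1 v 0), s * D.det v / P, hvp, hF, ?_, ?_, ?_, ?_, ?_, ?_, ?_⟩
  · exact neg_mem (mul_mem (det_mem D _ hvv) (wv_mem D _ A0 A1 hvv 2))
  · exact mul_mem (ofNat_mem _ 2) (mul_mem (det_mem D _ hvv) (wv_mem D _ A0 A1 hvv 1))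
  · exact neg_mem (mul_mem (det_mem D _ hvv) (wv_mem D _ A0 A1 hvv 0))
  · have h3 : (2 * (D.det v * wv D A0 A1 v 1)) ^ 2 -
        4 * (-(D.det v * wv D A0 A1 v 2)) * (-(D.det v * wv D A0 A1 v 0)) =
        4 * D.det v ^ 2 * (wv D A0 A1 v 1 ^ 2 - wv D A0 A1 v 0 * wv D A0 A1 v 2) := by ring
    rw [h3]
    exact mul_ne_zero (mul_ne_zero (by norm_num) (pow_ne_zero 2 hδv)) hd
  · exact div_mem (mul_mem hs (det_mem D _ hvG)) hPG
  · exact div_ne_zero (mul_ne_zero hs0 hδv) hP0
  · have hlinX : ∀ A : Fin 3 → ℂ, lin A (D.xv u l) = m / D.det v * lin A (D.xv v p) := by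
      intro A
      have h3 : D.xv u l = fun j => m / D.det v * D.xv v p j := funext hX
      rw [h3, lin_smul]
    have h4 : D.a1 (D.xv u l) + u * D.a2 (D.xv u l) = -(v * D.a2 (D.xv u l)) := by
      rw [hv]
      field_simp
      ring
    have h5 : (s * w) ^ 2 = -(D.det u * D.a2 (D.xv u l) * m / D.det v *
        (lin A0 (D.xv v p) + v * lin A1 (D.xv v p))) := by
      rw [hw, h4, hlinX, hlinX]
      ring
    have h6 : D.det u * D.a2 (D.xv u l) * m = P ^ 2 := by rw [← hsq]; ring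
    rw [h6, lin_xv] at h5
    have h7 : (s * D.det v / P * w) ^ 2 = (s * w) ^ 2 * D.det v ^ 2 / P ^ 2 := by
      field_simp
    rw [h7, h5]
    field_simp
    ring

end

end Vale.Agent.P297.H424
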